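import Mathlib
import Vale.Agent.P361.LRO.Defs

/-!
P361, LRO: basic facts on the charge network of `Defs.lean`, part A (helper169).

`SA μ θ z f`, `SB μ θ z f`: unnormalised sums over the configurations with / without a jump at the
node `z`, the slice weight at `z` removed.
-/

namespace Vale.Agent.P361.LRO

open Finset

noncomputable section

variable {X : Type} [Fintype X] [DecidableEq X]

/-! ### The law -/

theorem law_nonneg (l : List (X × X × ℝ)) (hl : ∀ g ∈ l, 0 ≤ g.2.2 ∧ g.2.2 ≤ 1)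
    (σ π : Equiv.Perm X) : 0 ≤ law l σ π := by
  induction l generalizing π with
  | nil =>
    simp only [law]
    by_cases h : π = σ
    · subst h; simp
    · simp [Pi.single_eq_of_ne h]
  | cons g l ih =>
    simp only [law]
    have hg := hl g (by simp)
    have ih' := fun π => ih (fun g' hg' => hl g' (by simp [hg'])) π
    have h1 := mul_nonneg (sub_nonneg.mpr hg.2) (ih' π)
    have h2 := mul_nonneg hg.1 (ih' (Equiv.swap g.1 g.2.1 * π))
    linarith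

theorem law_sum (l : List (X × X × ℝ)) (σ : Equiv.Perm X) : ∑ π, law l σ π = 1 := by
  induction l with
  | nil =>
    simp only [law]
    rw [Finset.sum_eq_single σ]
    · simp
    · intro π _ h; simp [Pi.single_eq_of_ne h]
    · intro h; exact absurd (Finset.mem_univ σ) h
  | cons g l ih =>
    simp only [law]
    rw [Finset.sum_add_distrib, ← Finset.mul_sum, ← Finset.mul_sum, ih]
    have h : ∑ π, law l σ (Equiv.swap g.1 g.2.1 * π) = ∑ π, law l σ π :=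
      Equiv.sum_comp (Equiv.mulLeft (Equiv.swap g.1 g.2.1)) (fun π => law l σ π)
    rw [h, ih]; ring

theorem IsLaw.nonneg {μ : Equiv.Perm X → ℝ} (h : IsLaw μ) (π : Equiv.Perm X) : 0 ≤ μ π := by
  obtain ⟨l, σ, hl, rfl⟩ := h
  exact law_nonneg l (fun g hg => ⟨(hl g hg).1, (hl g hg).2.trans (by norm_num)⟩) σ π

theorem IsLaw.sum {μ : Equiv.Perm X → ℝ} (h : IsLaw μ) : ∑ π, μ π = 1 := by
  obtain ⟨l, σ, _, rfl⟩ := h
  exact law_sum l σ

/-! ### Weights -/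

omit [DecidableEq X] in
theorem wt_nonneg {θ : X → ℝ} (hθ : ∀ x, 0 ≤ θ x) (π : Equiv.Perm X) (s : X → Fin 2) :
    0 ≤ wt θ π s :=
  Finset.prod_nonneg fun x _ => by split_ifs <;> simp [hθ x]

omit [DecidableEq X] in
theorem wt_const (θ : X → ℝ) (π : Equiv.Perm X) (i : Fin 2) : wt θ π (fun _ => i) = 1 := by
  simp [wt]

theorem wt_eq_mul_erase (θ : X → ℝ) (π : Equiv.Perm X) (s : X → Fin 2) (z : X) :
    wt θ π s = (if s z = s (π z) then 1 else θ z) *
      ∏ x ∈ univ.erase z, (if s x = s (π x) then 1 else θ x) := by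
  unfold wt
  exact (Finset.mul_prod_erase univ (fun x => if s x = s (π x) then (1:ℝ) else θ x)
    (Finset.mem_univ z)).symm

theorem wt_update_of_eq (θ : X → ℝ) {π : Equiv.Perm X} {s : X → Fin 2} {z : X}
    (h : s z = s (π z)) (t : ℝ) : wt (Function.update θ z t) π s = wt θ π s := by
  rw [wt_eq_mul_erase _ _ _ z, wt_eq_mul_erase θ _ _ z, if_pos h, if_pos h]
  congr 1
  refine Finset.prod_congr rfl fun x hx => ?_
  rw [Function.update_of_ne (Finset.ne_of_mem_erase hx)]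

theorem wt_of_ne (θ : X → ℝ) {π : Equiv.Perm X} {s : X → Fin 2} {z : X}
    (h : s z ≠ s (π z)) : wt θ π s = θ z * wt (Function.update θ z 1) π s := by
  rw [wt_eq_mul_erase _ _ _ z, wt_eq_mul_erase (Function.update θ z 1) _ _ z, if_neg h, if_neg h,
    Function.update_self, one_mul]
  congr 1
  refine Finset.prod_congr rfl fun x hx => ?_
  rw [Function.update_of_ne (Finset.ne_of_mem_erase hx)]

/-! ### Charges -/

omit [DecidableEq X] in
theorem sum_jj (π : Equiv.Perm X) (s : X → Fin 2) : ∑ x, jj π s x = 0 := by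
  unfold jj
  rw [Finset.sum_sub_distrib, sub_eq_zero]
  exact (Equiv.sum_comp π (fun x => ((s x : ℕ) : ℝ))).symm

omit [Fintype X] [DecidableEq X] in
theorem jj_sq (π : Equiv.Perm X) (s : X → Fin 2) (x : X) :
    jj π s x ^ 2 = if s x = s (π x) then 0 else 1 := by
  unfold jj
  generalize s x = a
  generalize s (π x) = b
  fin_cases a <;> fin_cases b <;> simp

omit [Fintype X] [DecidableEq X] in
theorem jj_eq_zero {π : Equiv.Perm X} {s : X → Fin 2} {x : X} (h : s x = s (π x)) :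
    jj π s x = 0 := by
  unfold jj; rw [h]; ring

omit [Fintype X] [DecidableEq X] in
theorem jj_abs_le (π : Equiv.Perm X) (s : X → Fin 2) (x : X) : |jj π s x| ≤ 1 := by
  rw [← sq_le_one_iff_abs_le_one, jj_sq]
  split_ifs <;> norm_num

/-! ### Unnormalised sums -/

/-- `∑ μ wt f`. -/
def SS (μ : Equiv.Perm X → ℝ) (θ : X → ℝ) (f : Equiv.Perm X → (X → Fin 2) → ℝ) : ℝ :=
  ∑ π, ∑ s, μ π * wt θ π s * f π s

/-- Jump at `z`, slice weight of `z` removed. -/
def SA (μ : Equiv.Perm X → ℝ) (θ : X → ℝ) (z : X)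
    (f : Equiv.Perm X → (X → Fin 2) → ℝ) : ℝ :=
  ∑ π, ∑ s, if s z = s (π z) then 0 else μ π * wt (Function.update θ z 1) π s * f π s

/-- No jump at `z`. -/
def SB (μ : Equiv.Perm X → ℝ) (θ : X → ℝ) (z : X)
    (f : Equiv.Perm X → (X → Fin 2) → ℝ) : ℝ :=
  ∑ π, ∑ s, if s z = s (π z) then μ π * wt θ π s * f π s else 0

/-- the constant function `1` -/
def one' : Equiv.Perm X → (X → Fin 2) → ℝ := fun _ _ => 1

theorem SS_split (μ : Equiv.Perm X → ℝ) (θ : X → ℝ) (z : X)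
    (f : Equiv.Perm X → (X → Fin 2) → ℝ) : SS μ θ f = SB μ θ z f + θ z * SA μ θ z f := by
  unfold SS SA SB
  rw [Finset.mul_sum, ← Finset.sum_add_distrib]
  refine Finset.sum_congr rfl fun π _ => ?_
  rw [Finset.mul_sum, ← Finset.sum_add_distrib]
  refine Finset.sum_congr rfl fun s _ => ?_
  by_cases h : s z = s (π z)
  · simp [h]
  · rw [if_neg h, if_neg h, wt_of_ne θ h]; ring

theorem SA_update (μ : Equiv.Perm X → ℝ) (θ : X → ℝ) (z : X) (t : ℝ)
    (f : Equiv.Perm X → (X → Fin 2) → ℝ) : SA μ (Function.update θ z t) z f = SA μ θ z f := by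
  unfold SA; simp only [Function.update_idem]

theorem SB_update (μ : Equiv.Perm X → ℝ) (θ : X → ℝ) (z : X) (t : ℝ)
    (f : Equiv.Perm X → (X → Fin 2) → ℝ) : SB μ (Function.update θ z t) z f = SB μ θ z f := by
  unfold SB
  refine Finset.sum_congr rfl fun π _ => Finset.sum_congr rfl fun s _ => ?_
  split_ifs with h
  · rw [wt_update_of_eq θ h]
  · rfl

theorem ZZ_eq (μ : Equiv.Perm X → ℝ) (θ : X → ℝ) : ZZ μ θ = SS μ θ one' := by
  simp [ZZ, SS, one']

theorem EE_eq (μ : Equiv.Perm X → ℝ) (θ : X → ℝ) (f : Equiv.Perm X → (X → Fin 2) → ℝ) :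
    EE μ θ f = SS μ θ f / SS μ θ one' := by
  rw [EE, ZZ_eq]; rfl

theorem mag_eq (μ : Equiv.Perm X → ℝ) (θ : X → ℝ) (z : X) :
    mag μ θ z = SA μ θ z one' / SB μ θ z one' := by
  simp [mag, SA, SB, one']

theorem SS_add (μ : Equiv.Perm X → ℝ) (θ : X → ℝ) (f g : Equiv.Perm X → (X → Fin 2) → ℝ) :
    SS μ θ (fun π s => f π s + g π s) = SS μ θ f + SS μ θ g := by
  unfold SS
  rw [← Finset.sum_add_distrib]
  refine Finset.sum_congr rfl fun π _ => ?_
  rw [← Finset.sum_add_distrib]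
  exact Finset.sum_congr rfl fun s _ => by ring

theorem SS_sub (μ : Equiv.Perm X → ℝ) (θ : X → ℝ) (f g : Equiv.Perm X → (X → Fin 2) → ℝ) :
    SS μ θ (fun π s => f π s - g π s) = SS μ θ f - SS μ θ g := by
  unfold SS
  rw [← Finset.sum_sub_distrib]
  refine Finset.sum_congr rfl fun π _ => ?_
  rw [← Finset.sum_sub_distrib]
  exact Finset.sum_congr rfl fun s _ => by ring

theorem SS_mul (μ : Equiv.Perm X → ℝ) (θ : X → ℝ) (c : ℝ)
    (f : Equiv.Perm X → (X → Fin 2) → ℝ) :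
    SS μ θ (fun π s => c * f π s) = c * SS μ θ f := by
  unfold SS
  rw [Finset.mul_sum]
  refine Finset.sum_congr rfl fun π _ => ?_
  rw [Finset.mul_sum]
  exact Finset.sum_congr rfl fun s _ => by ring

theorem SS_neg (μ : Equiv.Perm X → ℝ) (θ : X → ℝ) (f : Equiv.Perm X → (X → Fin 2) → ℝ) :
    SS μ θ (fun π s => - f π s) = - SS μ θ f := by
  have := SS_mul μ θ (-1) f
  simpa using this

theorem SS_sum {ι : Type*} (μ : Equiv.Perm X → ℝ) (θ : X → ℝ) (t : Finset ι)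
    (f : ι → Equiv.Perm X → (X → Fin 2) → ℝ) :
    SS μ θ (fun π s => ∑ i ∈ t, f i π s) = ∑ i ∈ t, SS μ θ (f i) := by
  unfold SS
  simp only [Finset.mul_sum]
  have h : ∀ π : Equiv.Perm X, ∑ s : X → Fin 2, ∑ i ∈ t, μ π * wt θ π s * f i π s =
      ∑ i ∈ t, ∑ s : X → Fin 2, μ π * wt θ π s * f i π s := fun π => Finset.sum_comm
  rw [Finset.sum_congr rfl fun π _ => h π, Finset.sum_comm]

theorem SS_nonneg {μ : Equiv.Perm X → ℝ} (hμ : ∀ π, 0 ≤ μ π) {θ : X → ℝ} (hθ : ∀ x, 0 ≤ θ x)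
    {f : Equiv.Perm X → (X → Fin 2) → ℝ} (hf : ∀ π s, 0 ≤ f π s) : 0 ≤ SS μ θ f :=
  Finset.sum_nonneg fun π _ => Finset.sum_nonneg fun s _ =>
    mul_nonneg (mul_nonneg (hμ π) (wt_nonneg hθ π s)) (hf π s)

theorem SS_mono {μ : Equiv.Perm X → ℝ} (hμ : ∀ π, 0 ≤ μ π) {θ : X → ℝ} (hθ : ∀ x, 0 ≤ θ x)
    {f g : Equiv.Perm X → (X → Fin 2) → ℝ} (hf : ∀ π s, f π s ≤ g π s) :
    SS μ θ f ≤ SS μ θ g :=
  Finset.sum_le_sum fun π _ => Finset.sum_le_sum fun s _ =>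
    mul_le_mul_of_nonneg_left (hf π s) (mul_nonneg (hμ π) (wt_nonneg hθ π s))

theorem SA_nonneg {μ : Equiv.Perm X → ℝ} (hμ : ∀ π, 0 ≤ μ π) {θ : X → ℝ} (hθ : ∀ x, 0 ≤ θ x)
    (z : X) {f : Equiv.Perm X → (X → Fin 2) → ℝ} (hf : ∀ π s, 0 ≤ f π s) :
    0 ≤ SA μ θ z f :=
  Finset.sum_nonneg fun π _ => Finset.sum_nonneg fun s _ => by
    split_ifs
    · exact le_rfl
    · refine mul_nonneg (mul_nonneg (hμ π) (wt_nonneg (fun x => ?_) π s)) (hf π s)
      by_cases hx : x = z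
      · subst hx; simp
      · rw [Function.update_of_ne hx]; exact hθ x

theorem SB_pos {μ : Equiv.Perm X → ℝ} (hμ : ∀ π, 0 ≤ μ π) (hμ1 : ∑ π, μ π = 1) {θ : X → ℝ}
    (hθ : ∀ x, 0 ≤ θ x) (z : X) : 1 ≤ SB μ θ z one' := by
  rw [← hμ1]
  unfold SB one'
  refine Finset.sum_le_sum fun π _ => ?_
  have h : (if (fun _ : X => (0 : Fin 2)) z = (fun _ : X => (0 : Fin 2)) (π z) then
      μ π * wt θ π (fun _ => 0) * 1 else 0) = μ π := by
    simp [wt_const]
  calc μ π = _ := h.symm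
    _ ≤ _ := Finset.single_le_sum (f := fun s : X → Fin 2 =>
        if s z = s (π z) then μ π * wt θ π s * 1 else 0) (fun s _ => by
          split_ifs
          · exact mul_nonneg (mul_nonneg (hμ π) (wt_nonneg hθ π s)) zero_le_one
          · exact le_rfl) (Finset.mem_univ (fun _ : X => (0 : Fin 2)))

theorem SS_one_pos {μ : Equiv.Perm X → ℝ} (hμ : ∀ π, 0 ≤ μ π) (hμ1 : ∑ π, μ π = 1) {θ : X → ℝ}
    (hθ : ∀ x, 0 ≤ θ x) : 1 ≤ SS μ θ one' := by
  rw [← hμ1]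
  unfold SS one'
  refine Finset.sum_le_sum fun π _ => ?_
  have h : μ π * wt θ π (fun _ => 0) * 1 = μ π := by
    simp [wt_const]
  calc μ π = _ := h.symm
    _ ≤ _ := Finset.single_le_sum (f := fun s : X → Fin 2 => μ π * wt θ π s * 1) (fun s _ =>
          mul_nonneg (mul_nonneg (hμ π) (wt_nonneg hθ π s)) zero_le_one) (Finset.mem_univ _)

theorem ZZ_pos {μ : Equiv.Perm X → ℝ} (h : IsLaw μ) {θ : X → ℝ} (hθ : ∀ x, 0 ≤ θ x) :
    0 < ZZ μ θ := by
  rw [ZZ_eq]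
  exact lt_of_lt_of_le one_pos (SS_one_pos h.nonneg h.sum hθ)

theorem EE_split (μ : Equiv.Perm X → ℝ) (θ : X → ℝ) (z : X)
    (f : Equiv.Perm X → (X → Fin 2) → ℝ) :
    EE μ θ f = (SB μ θ z f + θ z * SA μ θ z f) / (SB μ θ z one' + θ z * SA μ θ z one') := by
  rw [EE_eq, SS_split μ θ z f, SS_split μ θ z one']

theorem SB_mul_jj (μ : Equiv.Perm X → ℝ) (θ : X → ℝ) (z : X)
    (f : Equiv.Perm X → (X → Fin 2) → ℝ) : SB μ θ z (fun π s => jj π s z * f π s) = 0 := by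
  unfold SB
  refine Finset.sum_eq_zero fun π _ => Finset.sum_eq_zero fun s _ => ?_
  split_ifs with h
  · simp only [jj_eq_zero h]; ring
  · rfl

theorem SA_mul_jj_sq (μ : Equiv.Perm X → ℝ) (θ : X → ℝ) (z : X)
    (f : Equiv.Perm X → (X → Fin 2) → ℝ) :
    SA μ θ z (fun π s => jj π s z ^ 2 * f π s) = SA μ θ z f := by
  unfold SA
  refine Finset.sum_congr rfl fun π _ => Finset.sum_congr rfl fun s _ => ?_
  split_ifs with h
  · rfl
  · simp only [jj_sq, if_neg h]; ring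

theorem SB_mul_jj_sq (μ : Equiv.Perm X → ℝ) (θ : X → ℝ) (z : X)
    (f : Equiv.Perm X → (X → Fin 2) → ℝ) :
    SB μ θ z (fun π s => jj π s z ^ 2 * f π s) = 0 := by
  unfold SB
  refine Finset.sum_eq_zero fun π _ => Finset.sum_eq_zero fun s _ => ?_
  split_ifs with h
  · simp only [jj_eq_zero h]; ring
  · rfl

theorem SS_mul_jj_sq (μ : Equiv.Perm X → ℝ) (θ : X → ℝ) (z : X)
    (f : Equiv.Perm X → (X → Fin 2) → ℝ) :
    SS μ θ (fun π s => jj π s z ^ 2 * f π s) = θ z * SA μ θ z f := by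
  rw [SS_split μ θ z, SB_mul_jj_sq, SA_mul_jj_sq, zero_add]

theorem SS_mul_jj (μ : Equiv.Perm X → ℝ) (θ : X → ℝ) (z : X)
    (f : Equiv.Perm X → (X → Fin 2) → ℝ) :
    SS μ θ (fun π s => jj π s z * f π s) = θ z * SA μ θ z (fun π s => jj π s z * f π s) := by
  rw [SS_split μ θ z, SB_mul_jj, zero_add]

/-- `v_z = θ_z A / Z`. -/
theorem vv_eq (μ : Equiv.Perm X → ℝ) (θ : X → ℝ) (z : X) :
    vv μ θ z = θ z * SA μ θ z one' / SS μ θ one' := by
  rw [vv, EE_eq]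
  congr 1
  have := SS_mul_jj_sq μ θ z one'
  simpa [one'] using this

/-- `v_z = θ_z M_z / (1 + θ_z M_z)`. -/
theorem vv_eq_mag {μ : Equiv.Perm X → ℝ} (h : IsLaw μ) {θ : X → ℝ} (hθ : ∀ x, 0 ≤ θ x) (z : X) :
    vv μ θ z = θ z * mag μ θ z / (1 + θ z * mag μ θ z) := by
  have hB : 0 < SB μ θ z one' := lt_of_lt_of_le one_pos (SB_pos h.nonneg h.sum hθ z)
  have hA : 0 ≤ SA μ θ z one' := SA_nonneg h.nonneg hθ z fun _ _ => zero_le_one
  have hZ : 0 < SB μ θ z one' + θ z * SA μ θ z one' := by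
    have := mul_nonneg (hθ z) hA; linarith
  rw [vv_eq, SS_split μ θ z, mag_eq]
  have h1 : 1 + θ z * (SA μ θ z one' / SB μ θ z one') =
      (SB μ θ z one' + θ z * SA μ θ z one') / SB μ θ z one' := by
    field_simp
  rw [h1]
  field_simp

theorem mag_nonneg {μ : Equiv.Perm X → ℝ} (h : IsLaw μ) {θ : X → ℝ} (hθ : ∀ x, 0 ≤ θ x) (z : X) :
    0 ≤ mag μ θ z := by
  rw [mag_eq]
  exact div_nonneg (SA_nonneg h.nonneg hθ z fun _ _ => zero_le_one)
    (le_trans zero_le_one (SB_pos h.nonneg h.sum hθ z))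

theorem vv_nonneg {μ : Equiv.Perm X → ℝ} (h : IsLaw μ) {θ : X → ℝ} (hθ : ∀ x, 0 ≤ θ x) (z : X) :
    0 ≤ vv μ θ z := by
  rw [vv_eq_mag h hθ]
  have h1 := mul_nonneg (hθ z) (mag_nonneg h hθ z)
  exact div_nonneg h1 (by linarith)

theorem vv_le_mul_mag {μ : Equiv.Perm X → ℝ} (h : IsLaw μ) {θ : X → ℝ} (hθ : ∀ x, 0 ≤ θ x)
    (z : X) : vv μ θ z ≤ θ z * mag μ θ z := by
  rw [vv_eq_mag h hθ]
  have h1 := mul_nonneg (hθ z) (mag_nonneg h hθ z)
  exact div_le_self h1 (by linarith)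

theorem mag_update (μ : Equiv.Perm X → ℝ) (θ : X → ℝ) (z : X) (t : ℝ) :
    mag μ (Function.update θ z t) z = mag μ θ z := by
  rw [mag_eq, mag_eq, SA_update, SB_update]

/-! ### The quadratic form -/

/-- With weight `g`: `E (a·j)² g = (1/2) ∑ ∑ (- E j_u j_v g) (a_u - a_v)²`. -/
theorem SS_quad (μ : Equiv.Perm X → ℝ) (θ : X → ℝ) (g : Equiv.Perm X → (X → Fin 2) → ℝ)
    (a : X → ℝ) :
    SS μ θ (fun π s => (∑ x, a x * jj π s x) ^ 2 * g π s) =
      (1 / 2) * ∑ u, ∑ v, (- SS μ θ (fun π s => jj π s u * jj π s v * g π s)) *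
        (a u - a v) ^ 2 := by
  have hpt : ∀ (π : Equiv.Perm X) (s : X → Fin 2), (∑ x, a x * jj π s x) ^ 2 * g π s =
      ∑ u, ∑ v, (-(1 / 2) * (a u - a v) ^ 2) * (jj π s u * jj π s v * g π s) := by
    intro π s
    have h0 := sum_jj π s
    have e1 : ∑ u, ∑ v, (-(1 / 2) * (a u - a v) ^ 2) * (jj π s u * jj π s v * g π s) =
        g π s * ((∑ u, a u * jj π s u) * (∑ v, a v * jj π s v)
          - (1 / 2) * ((∑ u, a u ^ 2 * jj π s u) * (∑ v, jj π s v))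
          - (1 / 2) * ((∑ u, jj π s u) * (∑ v, a v ^ 2 * jj π s v))) := by
      rw [Finset.sum_mul_sum, Finset.sum_mul_sum, Finset.sum_mul_sum]
      simp only [Finset.mul_sum, ← Finset.sum_sub_distrib]
      refine Finset.sum_congr rfl fun u _ => Finset.sum_congr rfl fun v _ => ?_
      ring
    rw [e1, h0]; ring
  have h2 : (fun (π : Equiv.Perm X) (s : X → Fin 2) => (∑ x, a x * jj π s x) ^ 2 * g π s) =
      fun π s => ∑ u, ∑ v, (-(1 / 2) * (a u - a v) ^ 2) * (jj π s u * jj π s v * g π s) := by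
    funext π s; exact hpt π s
  rw [h2, SS_sum, Finset.mul_sum]
  refine Finset.sum_congr rfl fun u _ => ?_
  rw [SS_sum, Finset.mul_sum]
  refine Finset.sum_congr rfl fun v _ => ?_
  rw [SS_mul]; ring

/-- `K(a) = (1/2) ∑ ∑ c_uv (a_u - a_v)²`. -/
theorem KK_eq_sum (μ : Equiv.Perm X → ℝ) (θ : X → ℝ) (a : X → ℝ) :
    KK μ θ a = (1 / 2) * ∑ u, ∑ v, cc μ θ u v * (a u - a v) ^ 2 := by
  have h := SS_quad μ θ one' a
  simp only [one', mul_one] at h
  have h' : (1 : Equiv.Perm X → (X → Fin 2) → ℝ) = one' := rfl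
  rw [KK, EE_eq, h, mul_div_assoc]
  congr 1
  rw [Finset.sum_div]
  refine Finset.sum_congr rfl fun u _ => ?_
  rw [Finset.sum_div]
  refine Finset.sum_congr rfl fun v _ => ?_
  rw [cc, EE_eq, neg_mul, neg_div, mul_div_right_comm, neg_mul]

theorem cc_symm (μ : Equiv.Perm X → ℝ) (θ : X → ℝ) (u v : X) : cc μ θ u v = cc μ θ v u := by
  unfold cc
  congr 2
  funext π s
  ring

theorem cc_self (μ : Equiv.Perm X → ℝ) (θ : X → ℝ) (u : X) : cc μ θ u u = - vv μ θ u := by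
  unfold cc vv
  congr 2
  funext π s
  ring

theorem sum_cc (μ : Equiv.Perm X → ℝ) (θ : X → ℝ) (u : X) : ∑ v, cc μ θ u v = 0 := by
  have h : ∑ v, SS μ θ (fun π s => jj π s u * jj π s v) = 0 := by
    rw [← SS_sum]
    have : (fun (π : Equiv.Perm X) (s : X → Fin 2) => ∑ i, jj π s u * jj π s i) =
        fun _ _ => 0 := by
      funext π s
      rw [← Finset.mul_sum, sum_jj, mul_zero]
    rw [this]
    simp [SS]
  unfold cc
  simp only [EE_eq]
  rw [Finset.sum_neg_distrib, ← Finset.sum_div, h, zero_div, neg_zero]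

/-- `v_z = ∑_{x ≠ z} c_zx`. -/
theorem vv_eq_sum_cc (μ : Equiv.Perm X → ℝ) (θ : X → ℝ) (z : X) :
    vv μ θ z = ∑ x ∈ univ.erase z, cc μ θ z x := by
  have h1 := sum_cc μ θ z
  rw [← Finset.add_sum_erase _ _ (Finset.mem_univ z), cc_self] at h1
  linarith

theorem KK_nonneg {μ : Equiv.Perm X → ℝ} (hμ : ∀ π, 0 ≤ μ π) {θ : X → ℝ} (hθ : ∀ x, 0 ≤ θ x)
    (a : X → ℝ) : 0 ≤ KK μ θ a := by
  rw [KK, EE_eq]
  exact div_nonneg (SS_nonneg hμ hθ fun _ _ => sq_nonneg _)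
    (SS_nonneg hμ hθ fun _ _ => zero_le_one)

end

end Vale.Agent.P361.LRO
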