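import Vale.Agent.P361.LRO.Ind.Defs

/-!
P361 LRO, block (6): the abstract outside-in induction, top statement only (structures `Local`,
`Low` of `Ind/Defs.lean`).
-/

namespace Vale.Agent.P361.LRO.Ind

open Finset Vale.Agent.P361.LRO _root_.P361.LRO

noncomputable section

/-- **Block (6), abstract form.**  `N = Mw * W` with `Mw` time windows of `W` slices, of length
`β / Mw` in `[1/4, 1/3]`; window `q < Mw` = layers `1 + q * W, …, W + q * W`. -/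
def IndMain : Prop :=
  ∀ c1 : ℝ, 0 < c1 → ∃ c3 : ℝ, 0 < c3 ∧ ∀ A B : ℝ, 0 < A → 0 < B → ∃ β0 : ℝ, ∀ β : ℝ, β0 ≤ β →
    ∀ a : ℕ, β ^ (7 / 20 : ℝ) ≤ (3 : ℝ) ^ a → (3 : ℝ) ^ a ≤ 3 * β ^ (7 / 20 : ℝ) →
    ∀ lam : ℝ, β⁻¹ ≤ lam → lam ≤ 1 → ∃ n0 : ℕ, ∀ (n : ℕ) [NeZero n], n0 ≤ n → ∀ h0 : ℝ, (n : ℝ) ^ (-(1 / 4) : ℝ) ≤ h0 →
    h0 ≤ 1 → ∀ (x0 : Tor n) (Mw W : ℕ), 1 ≤ W → 1 / 4 ≤ β / Mw → β / Mw ≤ 1 / 3 →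
    ∀ ε : ℝ, 0 ≤ ε → ε ≤ B * β ^ (-(1 / 200) : ℝ) →
    ∀ c : (Tor n → ℝ) → Nd n (Mw * W) → Nd n (Mw * W) → ℝ,
    (∀ h, Fam n h0 lam h →
      Local n (Mw * W) W β (A * β ^ (1 / 100 : ℝ)) c1 (cube n x0 (3 ^ a)) h (c h)) →
    Low n (Mw * W) β h0 lam ε c →
    ∀ h, Fam n h0 lam h →
      c3 * (A * β ^ (1 / 100 : ℝ)) ≤
        netK (c h) fun z => if z ∈ hatb (Mw * W) (cube n x0 (3 ^ a)) then 1 else 0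

end

end Vale.Agent.P361.LRO.Ind
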