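import Vale.Agent.P361.LRO.Net.Master
import Vale.Agent.P361.LRO.Loc.Done
import Vale.Agent.P361.LRO.Mag.Done

/-!
P361 LRO, block (6): `KappaStmt` from the abstract block (6) alone.
-/

namespace Vale.Agent.P361.LRO.Net

open Finset Filter Vale.Agent.P361.LRO

theorem locBound : ∃ cl : ℝ, 0 < cl ∧ LocBound cl := by
  obtain ⟨c0, h0, h⟩ := loc
  exact ⟨c0, h0, fun {V} _ _ L hd β hβ N hN h' T hh hT =>
    h L (fun x => hd x) β hβ N hN h' T hh hT⟩

theorem trMag : TrMag := fun {_} _ _ L _ _ _ hβ hb hK _ hη =>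
  tr_mag L hβ hK hη hb

theorem kappaStmt_of_block6 (h6 : Block6) : KappaStmt := kappaStmt_of h6 locBound trMag

end Vale.Agent.P361.LRO.Net
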