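import Mathlib
import Vale.Agent.P361.LRO.Net.LawBasic

/-!
P361, LRO: Griffiths' first inequality for the spins of the charge network (helper169), and its
consequences `0 ≤ cc` off the diagonal, `mag ≤ 1`, for every law `μ ≥ 0` and `0 ≤ θ ≤ 1`.
-/

namespace Vale.Agent.P361.LRO

open Finset

noncomputable section

variable {X : Type} [Fintype X] [DecidableEq X]

/-- `±1` spin. -/
def sgn2 (i : Fin 2) : ℝ := if i = 0 then 1 else -1

theorem sgn2_zero : sgn2 0 = 1 := by simp [sgn2]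

theorem sgn2_one : sgn2 1 = -1 := by simp [sgn2]

theorem sgn2_sq (i : Fin 2) : sgn2 i * sgn2 i = 1 := by
  fin_cases i <;> simp [sgn2]

theorem sgn2_flip (i : Fin 2) : sgn2 (1 - i) = - sgn2 i := by
  fin_cases i <;> simp [sgn2]

/-- Monomials in the spins. -/
def mon (m : X → ℕ) (s : X → Fin 2) : ℝ := ∏ x, sgn2 (s x) ^ m x

omit [DecidableEq X] in
theorem mon_add (m m' : X → ℕ) (s : X → Fin 2) : mon (m + m') s = mon m s * mon m' s := by
  simp only [mon, Pi.add_apply, pow_add, Finset.prod_mul_distrib]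

theorem mon_single (p : X) (s : X → Fin 2) : mon (Pi.single p 1) s = sgn2 (s p) := by
  unfold mon
  rw [Finset.prod_eq_single p]
  · simp
  · intro x _ hx; simp [Pi.single_eq_of_ne hx]
  · intro h; exact absurd (Finset.mem_univ p) h

theorem sum_mon_nonneg (m : X → ℕ) : 0 ≤ ∑ s : X → Fin 2, mon m s := by
  have h := Finset.prod_univ_sum (fun _ : X => (univ : Finset (Fin 2)))
    (fun x i => sgn2 i ^ m x)
  rw [Fintype.piFinset_univ] at h
  unfold mon
  rw [← h]
  refine Finset.prod_nonneg fun x _ => ?_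
  rw [Fin.sum_univ_two, sgn2_zero, sgn2_one, one_pow]
  rcases neg_one_pow_eq_or ℝ (m x) with h | h <;> rw [h] <;> norm_num

/-- **Griffiths' first inequality.** -/
theorem griffiths (T : Finset X) (α β : X → ℝ) (hα : ∀ x, 0 ≤ α x) (hβ : ∀ x, 0 ≤ β x)
    (p q : X → X) (m : X → ℕ) :
    0 ≤ ∑ s : X → Fin 2, mon m s * ∏ x ∈ T, (α x + β x * (sgn2 (s (p x)) * sgn2 (s (q x)))) := by
  induction T using Finset.induction generalizing m with
  | empty => simpa using sum_mon_nonneg m
  | insert a T ha ih =>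
    have e : ∀ s : X → Fin 2,
        mon m s * ∏ x ∈ insert a T, (α x + β x * (sgn2 (s (p x)) * sgn2 (s (q x)))) =
        α a * (mon m s * ∏ x ∈ T, (α x + β x * (sgn2 (s (p x)) * sgn2 (s (q x))))) +
        β a * (mon (m + Pi.single (p a) 1 + Pi.single (q a) 1) s *
          ∏ x ∈ T, (α x + β x * (sgn2 (s (p x)) * sgn2 (s (q x))))) := by
      intro s
      rw [Finset.prod_insert ha, mon_add, mon_add, mon_single, mon_single]
      ring
    rw [Finset.sum_congr rfl fun s _ => e s, Finset.sum_add_distrib, ← Finset.mul_sum,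
      ← Finset.mul_sum]
    exact add_nonneg (mul_nonneg (hα a) (ih m)) (mul_nonneg (hβ a) (ih _))

/-- The bond weight. -/
theorem bond_eq (t : ℝ) (i j : Fin 2) :
    (if i = j then (1 : ℝ) else t) = (1 + t) / 2 + (1 - t) / 2 * (sgn2 i * sgn2 j) := by
  fin_cases i <;> fin_cases j <;> simp [sgn2] <;> ring

omit [Fintype X] [DecidableEq X] in
theorem jj_eq_sgn (π : Equiv.Perm X) (s : X → Fin 2) (x : X) :
    jj π s x = (sgn2 (s (π x)) - sgn2 (s x)) / 2 := by
  unfold jj
  generalize s x = a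
  generalize s (π x) = b
  fin_cases a <;> fin_cases b <;> simp [sgn2] <;> norm_num

/-- Two point function with the bonds in `T`. -/
theorem griffiths_two {θ : X → ℝ} (hθ : ∀ x, 0 ≤ θ x ∧ θ x ≤ 1) (π : Equiv.Perm X)
    (T : Finset X) (a b : X) :
    0 ≤ ∑ s : X → Fin 2, (sgn2 (s a) * sgn2 (s b)) *
      ∏ x ∈ T, (if s x = s (π x) then 1 else θ x) := by
  have h := griffiths T (fun x => (1 + θ x) / 2) (fun x => (1 - θ x) / 2)
    (fun x => by have := (hθ x).1; positivity) (fun x => by have := (hθ x).2; linarith)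
    (fun x => x) (fun x => π x) (Pi.single a 1 + Pi.single b 1)
  refine h.trans (le_of_eq ?_)
  refine Finset.sum_congr rfl fun s _ => ?_
  rw [mon_add, mon_single, mon_single]
  congr 1
  exact Finset.prod_congr rfl fun x _ => (bond_eq _ _ _).symm

/-! ### Flipping a set of spins -/

/-- Flip the spins in `P`. -/
def flipP (P : X → Prop) [DecidablePred P] (s : X → Fin 2) : X → Fin 2 :=
  fun x => if P x then 1 - s x else s x

omit [Fintype X] [DecidableEq X] in
theorem flipP_invol (P : X → Prop) [DecidablePred P] : Function.Involutive (flipP P) := by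
  intro s
  funext x
  unfold flipP
  by_cases h : P x
  · simp [h]
  · simp [h]

theorem sum_flipP (P : X → Prop) [DecidablePred P] (F : (X → Fin 2) → ℝ) :
    ∑ s, F (flipP P s) = ∑ s, F s :=
  Equiv.sum_comp (Function.Involutive.toPerm (flipP P) (flipP_invol P)) F

theorem sum_eq_zero_of_flip (P : X → Prop) [DecidablePred P] (F : (X → Fin 2) → ℝ)
    (h : ∀ s, F (flipP P s) = - F s) : ∑ s, F s = 0 := by
  have h1 := sum_flipP P F
  rw [Finset.sum_congr rfl fun s _ => h s, Finset.sum_neg_distrib] at h1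
  linarith

omit [Fintype X] [DecidableEq X] in
theorem sgn2_flipP (P : X → Prop) [DecidablePred P] (s : X → Fin 2) (x : X) :
    sgn2 (flipP P s x) = (if P x then -1 else 1) * sgn2 (s x) := by
  unfold flipP
  split_ifs with h
  · rw [sgn2_flip]; ring
  · ring

omit [Fintype X] [DecidableEq X] in
theorem flipP_eq_iff (P : X → Prop) [DecidablePred P] (s : X → Fin 2) {x y : X}
    (h : P x ↔ P y) : (flipP P s x = flipP P s y) ↔ (s x = s y) := by
  unfold flipP
  by_cases hx : P x
  · have hy : P y := h.mp hx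
    simp [hx, hy]
  · have hy : ¬ P y := fun h' => hx (h.mpr h')
    simp [hx, hy]

/-- The arc from `π u` to the first visit of `{u, v}`. -/
theorem exists_arc (π : Equiv.Perm X) {u v : X} (huv : u ≠ v) :
    ∃ P : X → Prop, (∀ x, x ≠ u → x ≠ v → (P x ↔ P (π x))) ∧ P (π u) ∧ ¬ P (π v) ∧
      (P u ↔ ¬ P v) := by
  classical
  have hex : ∃ n : ℕ, 1 ≤ n ∧ ((π ^ n) u = u ∨ (π ^ n) u = v) :=
    ⟨orderOf π, orderOf_pos π, Or.inl (by rw [pow_orderOf_eq_one]; rfl)⟩
  set n := Nat.find hex with hn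
  have hn1 : 1 ≤ n := (Nat.find_spec hex).1
  have hn2 : (π ^ n) u = u ∨ (π ^ n) u = v := (Nat.find_spec hex).2
  have hmin : ∀ i, 1 ≤ i → i < n → (π ^ i) u ≠ u ∧ (π ^ i) u ≠ v := by
    intro i hi1 hi2
    have := Nat.find_min hex hi2
    push Not at this
    exact this hi1
  have hsucc : ∀ i : ℕ, π ((π ^ i) u) = (π ^ (i + 1)) u := by
    intro i
    rw [pow_succ', Equiv.Perm.mul_apply]
  refine ⟨fun x => ∃ i, 1 ≤ i ∧ i ≤ n ∧ (π ^ i) u = x, ?_, ?_, ?_, ?_⟩
  · intro x hxu hxv
    constructor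
    · rintro ⟨i, hi1, hi2, rfl⟩
      have hin : i ≠ n := by
        rintro rfl
        rcases hn2 with h | h
        · exact hxu h
        · exact hxv h
      exact ⟨i + 1, by omega, by omega, (hsucc i).symm⟩
    · rintro ⟨i, hi1, hi2, hi⟩
      obtain ⟨k, rfl⟩ : ∃ k, i = k + 1 := ⟨i - 1, by omega⟩
      rw [← hsucc k] at hi
      have hk : (π ^ k) u = x := π.injective hi
      rcases Nat.eq_zero_or_pos k with h0 | h0
      · subst h0
        exact absurd hk.symm (by simpa using hxu)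
      · exact ⟨k, h0, by omega, hk⟩
  · exact ⟨1, le_rfl, hn1, by simp⟩
  · rintro ⟨i, hi1, hi2, hi⟩
    obtain ⟨k, rfl⟩ : ∃ k, i = k + 1 := ⟨i - 1, by omega⟩
    rw [← hsucc k] at hi
    have hk : (π ^ k) u = v := π.injective hi
    rcases Nat.eq_zero_or_pos k with h0 | h0
    · subst h0
      exact huv (by simpa using hk)
    · exact (hmin k h0 (by omega)).2 hk
  · have huP : (∃ i, 1 ≤ i ∧ i ≤ n ∧ (π ^ i) u = u) ↔ (π ^ n) u = u := by
      constructor
      · rintro ⟨i, hi1, hi2, hi⟩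
        rcases Nat.lt_or_ge i n with h | h
        · exact absurd hi (hmin i hi1 h).1
        · have : i = n := by omega
          rw [← this]; exact hi
      · intro h; exact ⟨n, hn1, le_rfl, h⟩
    have hvP : (∃ i, 1 ≤ i ∧ i ≤ n ∧ (π ^ i) u = v) ↔ (π ^ n) u = v := by
      constructor
      · rintro ⟨i, hi1, hi2, hi⟩
        rcases Nat.lt_or_ge i n with h | h
        · exact absurd hi (hmin i hi1 h).2
        · have : i = n := by omega
          rw [← this]; exact hi
      · intro h; exact ⟨n, hn1, le_rfl, h⟩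
    refine (show (∃ i, 1 ≤ i ∧ i ≤ n ∧ (π ^ i) u = u) ↔
      ¬ (∃ i, 1 ≤ i ∧ i ≤ n ∧ (π ^ i) u = v) from ?_)
    rw [huP, hvP]
    constructor
    · intro h h'
      exact huv (h.symm.trans h')
    · intro h
      exact hn2.resolve_right h

/-- At fixed permutation the charges at two nodes are negatively correlated. -/
theorem inner_nonpos {θ : X → ℝ} (hθ : ∀ x, 0 ≤ θ x ∧ θ x ≤ 1) (π : Equiv.Perm X) {u v : X}
    (huv : u ≠ v) : ∑ s, wt θ π s * (jj π s u * jj π s v) ≤ 0 := by
  classical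
  set R : (X → Fin 2) → ℝ := fun s =>
    ∏ x ∈ (univ.erase u).erase v, (if s x = s (π x) then 1 else θ x) with hR
  have hw : ∀ s, wt θ π s * (jj π s u * jj π s v) =
      (θ u * θ v / 4) * ((sgn2 (s (π u)) * sgn2 (s (π v))) * R s
        - (sgn2 (s (π u)) * sgn2 (s v)) * R s - (sgn2 (s u) * sgn2 (s (π v))) * R s
        + (sgn2 (s u) * sgn2 (s v)) * R s) := by
    intro s
    have h1 : wt θ π s = (if s u = s (π u) then 1 else θ u) *
        ((if s v = s (π v) then 1 else θ v) * R s) := by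
      rw [wt_eq_mul_erase θ π s u, hR]
      congr 1
      exact (Finset.mul_prod_erase (univ.erase u)
        (fun x => if s x = s (π x) then (1:ℝ) else θ x)
        (Finset.mem_erase.mpr ⟨huv.symm, Finset.mem_univ v⟩)).symm
    have h2 : ∀ x, (if s x = s (π x) then 1 else θ x) * jj π s x = θ x * jj π s x := by
      intro x
      split_ifs with h
      · rw [jj_eq_zero h]; ring
      · rfl
    have h3 : wt θ π s * (jj π s u * jj π s v) =
        ((if s u = s (π u) then 1 else θ u) * jj π s u) *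
        ((if s v = s (π v) then 1 else θ v) * jj π s v) * R s := by
      rw [h1]; ring
    rw [h3, h2, h2, jj_eq_sgn, jj_eq_sgn]
    ring
  obtain ⟨P, hP1, hP2, hP3, hP4⟩ := exists_arc π huv
  have hRflip : ∀ s, R (flipP P s) = R s := by
    intro s
    refine Finset.prod_congr rfl fun x hx => ?_
    have hxv : x ≠ v := Finset.ne_of_mem_erase hx
    have hxu : x ≠ u := Finset.ne_of_mem_erase (Finset.mem_of_mem_erase hx)
    simp only [flipP_eq_iff P s (hP1 x hxu hxv)]
  have z1 : ∑ s, (sgn2 (s (π u)) * sgn2 (s (π v))) * R s = 0 := by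
    refine sum_eq_zero_of_flip P _ fun s => ?_
    simp only [sgn2_flipP, hRflip, if_pos hP2, if_neg hP3]
    ring
  have z2 : ∑ s, (sgn2 (s u) * sgn2 (s v)) * R s = 0 := by
    refine sum_eq_zero_of_flip P _ fun s => ?_
    simp only [sgn2_flipP, hRflip]
    by_cases hu : P u
    · rw [if_pos hu, if_neg (hP4.mp hu)]; ring
    · have hv : P v := by
        by_contra hv
        exact hu (hP4.mpr hv)
      rw [if_neg hu, if_pos hv]; ring
  have g1 := griffiths_two hθ π ((univ.erase u).erase v) (π u) v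
  have g2 := griffiths_two hθ π ((univ.erase u).erase v) u (π v)
  rw [Finset.sum_congr rfl fun s _ => hw s, ← Finset.mul_sum, Finset.sum_add_distrib,
    Finset.sum_sub_distrib, Finset.sum_sub_distrib, z1, z2]
  have h4 : 0 ≤ θ u * θ v / 4 := by
    have := mul_nonneg (hθ u).1 (hθ v).1
    positivity
  have h5 : (0 : ℝ) - ∑ s, (sgn2 (s (π u)) * sgn2 (s v)) * R s
      - ∑ s, (sgn2 (s u) * sgn2 (s (π v))) * R s + 0 ≤ 0 := by
    have e1 : 0 ≤ ∑ s, (sgn2 (s (π u)) * sgn2 (s v)) * R s := g1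
    have e2 : 0 ≤ ∑ s, (sgn2 (s u) * sgn2 (s (π v))) * R s := g2
    linarith
  exact mul_nonpos_of_nonneg_of_nonpos h4 h5

/-- **The conductances are nonnegative.** -/
theorem cc_nonneg {μ : Equiv.Perm X → ℝ} (hμ : ∀ π, 0 ≤ μ π) {θ : X → ℝ}
    (hθ : ∀ x, 0 ≤ θ x ∧ θ x ≤ 1) {u v : X} (huv : u ≠ v) : 0 ≤ cc μ θ u v := by
  unfold cc
  rw [EE_eq, ← neg_div]
  refine div_nonneg ?_ (SS_nonneg hμ (fun x => (hθ x).1) fun _ _ => zero_le_one)
  have : SS μ θ (fun π s => jj π s u * jj π s v) =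
      ∑ π, μ π * ∑ s, wt θ π s * (jj π s u * jj π s v) := by
    unfold SS
    refine Finset.sum_congr rfl fun π _ => ?_
    rw [Finset.mul_sum]
    exact Finset.sum_congr rfl fun s _ => by ring
  rw [this, neg_nonneg]
  exact Finset.sum_nonpos fun π _ => mul_nonpos_of_nonneg_of_nonpos (hμ π) (inner_nonpos hθ π huv)

/-- `A ≤ B`. -/
theorem SA_le_SB {μ : Equiv.Perm X → ℝ} (hμ : ∀ π, 0 ≤ μ π) {θ : X → ℝ}
    (hθ : ∀ x, 0 ≤ θ x ∧ θ x ≤ 1) (z : X) : SA μ θ z one' ≤ SB μ θ z one' := by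
  rw [← sub_nonneg]
  have h : SB μ θ z one' - SA μ θ z one' =
      ∑ π, μ π * ∑ s : X → Fin 2, (sgn2 (s z) * sgn2 (s (π z))) *
        ∏ x ∈ univ.erase z, (if s x = s (π x) then 1 else θ x) := by
    unfold SB SA
    rw [← Finset.sum_sub_distrib]
    refine Finset.sum_congr rfl fun π _ => ?_
    rw [← Finset.sum_sub_distrib, Finset.mul_sum]
    refine Finset.sum_congr rfl fun s _ => ?_
    by_cases hz : s z = s (π z)
    · rw [if_pos hz, if_pos hz, wt_eq_mul_erase θ π s z, if_pos hz, ← hz, sgn2_sq]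
      simp only [one']
      ring
    · rw [if_neg hz, if_neg hz, wt_eq_mul_erase _ π s z, if_neg hz, Function.update_self]
      have h1 : sgn2 (s z) * sgn2 (s (π z)) = -1 := by
        revert hz
        generalize s z = a
        generalize s (π z) = b
        fin_cases a <;> fin_cases b <;> simp [sgn2]
      have h2 : ∏ x ∈ univ.erase z, (if s x = s (π x) then (1:ℝ) else Function.update θ z 1 x) =
          ∏ x ∈ univ.erase z, (if s x = s (π x) then 1 else θ x) :=
        Finset.prod_congr rfl fun x hx => by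
          rw [Function.update_of_ne (Finset.ne_of_mem_erase hx)]
      rw [h1, h2]
      simp only [one']
      ring
  rw [h]
  exact Finset.sum_nonneg fun π _ => mul_nonneg (hμ π) (griffiths_two hθ π _ _ _)

theorem mag_le_one {μ : Equiv.Perm X → ℝ} (h : IsLaw μ) {θ : X → ℝ}
    (hθ : ∀ x, 0 ≤ θ x ∧ θ x ≤ 1) (z : X) : mag μ θ z ≤ 1 := by
  rw [mag_eq]
  exact div_le_one_of_le₀ (SA_le_SB h.nonneg hθ z)
    (le_trans zero_le_one (SB_pos h.nonneg h.sum (fun x => (hθ x).1) z))

theorem vv_le {μ : Equiv.Perm X → ℝ} (h : IsLaw μ) {θ : X → ℝ}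
    (hθ : ∀ x, 0 ≤ θ x ∧ θ x ≤ 1) (z : X) : vv μ θ z ≤ θ z := by
  refine (vv_le_mul_mag h (fun x => (hθ x).1) z).trans ?_
  have := mul_le_mul_of_nonneg_left (mag_le_one h hθ z) (hθ z).1
  linarith

theorem le_vv {μ : Equiv.Perm X → ℝ} (h : IsLaw μ) {θ : X → ℝ}
    (hθ : ∀ x, 0 ≤ θ x ∧ θ x ≤ 1) (z : X) (hm : 1 / 2 ≤ mag μ θ z) : θ z / 4 ≤ vv μ θ z := by
  rw [vv_eq_mag h (fun x => (hθ x).1)]
  have h1 := mag_le_one h hθ z
  have h0 := hθ z
  have h2 : 0 ≤ θ z * mag μ θ z := mul_nonneg h0.1 (by linarith)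
  rw [le_div_iff₀ (by linarith)]
  have h3 : θ z * mag μ θ z ≤ 1 := by nlinarith
  have h4 : θ z * (1 / 2) ≤ θ z * mag μ θ z := mul_le_mul_of_nonneg_left hm h0.1
  nlinarith

end

end Vale.Agent.P361.LRO
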