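import Vale.Agent.P361.LRO.Defs
import Vale.Agent.P361.LRO.SR.OneNodeDef
import Vale.Agent.P361.LRO.NetODE
import Vale.Agent.P361.LRO.NetODEConv

/-!
P361, note 9886, step (3) for the charge network of `Defs.lean` (Part A): lowering the node
parameters `θ` along `max (θ') (e^{-s} θ)`.
-/

namespace Vale.Agent.P361.LRO.Net

open Finset Filter Topology
open Vale.Agent.P361.LRO

set_option linter.unusedSectionVars false

variable {X : Type} [Fintype X] [DecidableEq X]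

/-- The properties of the law of the rings used by the network part. -/
structure Good (μ : Equiv.Perm X → ℝ) : Prop where
  nn : ∀ π, 0 ≤ μ π
  pos : 0 < ∑ π, μ π
  ccnn : ∀ θ : X → ℝ, (∀ x, 0 ≤ θ x ∧ θ x ≤ 1) → ∀ x y, x ≠ y → 0 ≤ cc μ θ x y
  vle : ∀ θ : X → ℝ, (∀ x, 0 ≤ θ x ∧ θ x ≤ 1) → ∀ z, vv μ θ z ≤ θ z
  one : OneNode μ

/-! ### Elementary facts -/

theorem law_nonneg (l : List (X × X × ℝ)) (σ : Equiv.Perm X)
    (hl : ∀ g ∈ l, 0 ≤ g.2.2 ∧ g.2.2 ≤ 1) (π : Equiv.Perm X) : 0 ≤ law l σ π := by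
  induction l generalizing π with
  | nil =>
    simp only [law]
    by_cases h : π = σ
    · subst h; simp
    · simp [Pi.single_eq_of_ne h]
  | cons g l ih =>
    have hg := hl g (by simp)
    have hl' : ∀ g ∈ l, 0 ≤ g.2.2 ∧ g.2.2 ≤ 1 := fun g hg => hl g (by simp [hg])
    simp only [law]
    exact add_nonneg (mul_nonneg (by linarith [hg.2]) (ih hl' π)) (mul_nonneg hg.1 (ih hl' _))

theorem law_sum (l : List (X × X × ℝ)) (σ : Equiv.Perm X) : ∑ π, law l σ π = 1 := by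
  induction l with
  | nil => simp [law]
  | cons g l ih =>
    simp only [law, Finset.sum_add_distrib, ← Finset.mul_sum]
    have h := Equiv.sum_comp (Equiv.mulLeft (Equiv.swap g.1 g.2.1)) (law l σ)
    simp only [Equiv.coe_mulLeft] at h
    rw [h, ih]
    ring

theorem wt_nonneg {θ : X → ℝ} (hθ : ∀ x, 0 ≤ θ x) (π : Equiv.Perm X) (s : X → Fin 2) :
    0 ≤ wt θ π s := by
  unfold wt
  refine Finset.prod_nonneg fun x _ => ?_
  split_ifs
  · exact zero_le_one
  · exact hθ x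

theorem ZZ_pos {μ : Equiv.Perm X → ℝ} (h0 : ∀ π, 0 ≤ μ π) (h1 : 0 < ∑ π, μ π) {θ : X → ℝ}
    (hθ : ∀ x, 0 ≤ θ x) : 0 < ZZ μ θ := by
  unfold ZZ
  refine lt_of_lt_of_le h1 (Finset.sum_le_sum fun π _ => ?_)
  have h2 : μ π * wt θ π (fun _ => 0) = μ π := by simp [wt]
  calc μ π = μ π * wt θ π (fun _ => 0) := h2.symm
    _ ≤ ∑ s, μ π * wt θ π s :=
      Finset.single_le_sum (f := fun s => μ π * wt θ π s)
        (fun s _ => mul_nonneg (h0 π) (wt_nonneg hθ π s)) (Finset.mem_univ _)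

theorem sum_jj (π : Equiv.Perm X) (s : X → Fin 2) : ∑ x, jj π s x = 0 := by
  unfold jj
  rw [Finset.sum_sub_distrib, Equiv.sum_comp π (fun x => ((s x : ℕ) : ℝ)), sub_self]

theorem jj_sq (π : Equiv.Perm X) (s : X → Fin 2) (x : X) :
    jj π s x ^ 2 = if s x = s (π x) then 0 else 1 := by
  unfold jj
  generalize s x = u
  generalize s (π x) = v
  fin_cases u <;> fin_cases v <;> norm_num

/-! ### Linearity of the expectation -/

theorem EE_add (μ : Equiv.Perm X → ℝ) (θ : X → ℝ) (f g : Equiv.Perm X → (X → Fin 2) → ℝ) :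
    EE μ θ (fun π s => f π s + g π s) = EE μ θ f + EE μ θ g := by
  unfold EE
  rw [← add_div, ← Finset.sum_add_distrib]
  congr 1
  refine Finset.sum_congr rfl fun π _ => ?_
  rw [← Finset.sum_add_distrib]
  exact Finset.sum_congr rfl fun s _ => by ring

theorem EE_const_mul (μ : Equiv.Perm X → ℝ) (θ : X → ℝ) (k : ℝ)
    (f : Equiv.Perm X → (X → Fin 2) → ℝ) :
    EE μ θ (fun π s => k * f π s) = k * EE μ θ f := by
  unfold EE
  rw [← mul_div_assoc, Finset.mul_sum]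
  congr 1
  refine Finset.sum_congr rfl fun π _ => ?_
  rw [Finset.mul_sum]
  exact Finset.sum_congr rfl fun s _ => by ring

theorem EE_sum {ι : Type*} (A : Finset ι) (μ : Equiv.Perm X → ℝ) (θ : X → ℝ)
    (f : ι → Equiv.Perm X → (X → Fin 2) → ℝ) :
    EE μ θ (fun π s => ∑ i ∈ A, f i π s) = ∑ i ∈ A, EE μ θ (f i) := by
  classical
  induction A using Finset.induction_on with
  | empty => simp [EE]
  | insert i A hi ih =>
    simp only [Finset.sum_insert hi]
    rw [EE_add, ih]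

/-- Pointwise form of `K(a) = ∑_{u<v} c_uv (a_u - a_v)²`. -/
theorem jj_square (π : Equiv.Perm X) (s : X → Fin 2) (a : X → ℝ) :
    (∑ x, a x * jj π s x) ^ 2 =
      (1 / 2) * ∑ x, ∑ y, (-(jj π s x * jj π s y)) * (a x - a y) ^ 2 := by
  have h0 := sum_jj π s
  have e : ∀ x y : X, (-(jj π s x * jj π s y)) * (a x - a y) ^ 2 =
      -(a x ^ 2 * jj π s x) * jj π s y - jj π s x * (a y ^ 2 * jj π s y)
        + 2 * ((a x * jj π s x) * (a y * jj π s y)) := fun x y => by ring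
  simp only [e, Finset.sum_add_distrib, Finset.sum_sub_distrib, ← Finset.mul_sum,
    ← Finset.sum_mul, h0]
  ring

/-- Off-diagonal conductances. -/
noncomputable def c0 (μ : Equiv.Perm X → ℝ) (θ : X → ℝ) (x y : X) : ℝ :=
  if x = y then 0 else cc μ θ x y

theorem netK_offdiag (c : X → X → ℝ) (a : X → ℝ) :
    P361.LRO.netK (fun x y => if x = y then 0 else c x y) a =
      (1 / 2) * ∑ x, ∑ y, c x y * (a x - a y) ^ 2 := by
  unfold P361.LRO.netK
  congr 1
  refine Finset.sum_congr rfl fun x _ => Finset.sum_congr rfl fun y _ => ?_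
  by_cases h : x = y
  · subst h; simp
  · simp [h]

/-- `K` of a bilinear functional. -/
theorem netK_EE (μ : Equiv.Perm X → ℝ) (θ : X → ℝ) (R : Equiv.Perm X → (X → Fin 2) → ℝ)
    (a : X → ℝ) :
    (1 / 2) * ∑ x, ∑ y, (-(EE μ θ fun π s => R π s * (jj π s x * jj π s y))) * (a x - a y) ^ 2 =
      EE μ θ (fun π s => R π s * (∑ x, a x * jj π s x) ^ 2) := by
  have h1 : (fun (π : Equiv.Perm X) (s : X → Fin 2) => R π s * (∑ x, a x * jj π s x) ^ 2) =
      fun π s => ∑ x, ∑ y, ((-(1 / 2) * (a x - a y) ^ 2) *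
        (R π s * (jj π s x * jj π s y))) := by
    funext π s
    rw [jj_square, Finset.mul_sum, Finset.mul_sum]
    refine Finset.sum_congr rfl fun x _ => ?_
    rw [Finset.mul_sum, Finset.mul_sum]
    exact Finset.sum_congr rfl fun y _ => by ring
  rw [h1, EE_sum, Finset.mul_sum]
  refine Finset.sum_congr rfl fun x _ => ?_
  rw [EE_sum, Finset.mul_sum]
  refine Finset.sum_congr rfl fun y _ => ?_
  rw [EE_const_mul]
  ring

theorem netK_c0 (μ : Equiv.Perm X → ℝ) (θ : X → ℝ) (a : X → ℝ) :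
    P361.LRO.netK (c0 μ θ) a = KK μ θ a := by
  have h := netK_EE μ θ (fun _ _ => 1) a
  simp only [one_mul] at h
  unfold c0
  rw [netK_offdiag]
  exact h

/-- `K(a) = (1/2) ∑ ∑ c_xy (a_x - a_y)²`. -/
theorem KK_eq (μ : Equiv.Perm X → ℝ) (θ : X → ℝ) (a : X → ℝ) :
    KK μ θ a = (1 / 2) * ∑ x, ∑ y, cc μ θ x y * (a x - a y) ^ 2 := by
  rw [← netK_c0]; unfold c0; rw [netK_offdiag]

theorem cc_self (μ : Equiv.Perm X → ℝ) (θ : X → ℝ) (z : X) : cc μ θ z z = - vv μ θ z := by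
  unfold cc vv
  simp only [pow_two]

theorem cc_comm (μ : Equiv.Perm X → ℝ) (θ : X → ℝ) (x y : X) : cc μ θ x y = cc μ θ y x := by
  unfold cc
  simp only [mul_comm]

theorem sum_cc (μ : Equiv.Perm X → ℝ) (θ : X → ℝ) (z : X) : ∑ x, cc μ θ z x = 0 := by
  unfold cc
  rw [Finset.sum_neg_distrib, ← EE_sum]
  have : (fun (π : Equiv.Perm X) (s : X → Fin 2) => ∑ i, jj π s z * jj π s i) =
      fun _ _ => 0 := by
    funext π s
    rw [← Finset.mul_sum, sum_jj, mul_zero]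
  rw [this]
  simp [EE]

theorem netV_c0 (μ : Equiv.Perm X → ℝ) (θ : X → ℝ) (z : X) :
    P361.LRO.netV (c0 μ θ) z = vv μ θ z := by
  unfold P361.LRO.netV c0
  have h1 : ∑ x, (if z = x then (0 : ℝ) else cc μ θ z x) =
      ∑ x, cc μ θ z x - ∑ x, (if z = x then cc μ θ z x else 0) := by
    rw [← Finset.sum_sub_distrib]
    refine Finset.sum_congr rfl fun x _ => ?_
    by_cases h : z = x <;> simp [h]
  rw [h1, sum_cc, Finset.sum_ite_eq]
  simp [cc_self]

theorem netQ_c0 (μ : Equiv.Perm X → ℝ) (θ : X → ℝ) (a : X → ℝ) (z : X) :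
    P361.LRO.netQ (c0 μ θ) a z = - ∑ x, cc μ θ z x * (a x - a z) := by
  unfold P361.LRO.netQ c0
  rw [← Finset.sum_neg_distrib]
  refine Finset.sum_congr rfl fun x _ => ?_
  by_cases h : z = x
  · subst h; simp
  · simp [h]; ring

theorem netStar_c0 (μ : Equiv.Perm X → ℝ) (θ : X → ℝ) (a : X → ℝ) (z : X) :
    P361.LRO.netStar (c0 μ θ) a z = ∑ x, cc μ θ z x * (a x - a z) ^ 2 := by
  unfold P361.LRO.netStar c0
  refine Finset.sum_congr rfl fun x _ => ?_
  by_cases h : z = x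
  · subst h; simp
  · simp [h]

/-! ### Derivatives along a path of parameters -/

section Deriv

variable {θs : ℝ → X → ℝ} {r : X → ℝ} {s₀ : ℝ} {S : Set ℝ}

/-- `∑_z r_z j_z²`. -/
noncomputable def RR (r : X → ℝ) (π : Equiv.Perm X) (s : X → Fin 2) : ℝ :=
  ∑ z, r z * jj π s z ^ 2

theorem wt_hasDeriv (h : ∀ x, HasDerivWithinAt (fun t => θs t x) (-(r x * θs s₀ x)) S s₀)
    (π : Equiv.Perm X) (s : X → Fin 2) :
    HasDerivWithinAt (fun t => wt (θs t) π s) (-(RR r π s * wt (θs s₀) π s)) S s₀ := by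
  have h1 : ∀ x ∈ (Finset.univ : Finset X),
      HasDerivWithinAt (fun t => if s x = s (π x) then (1 : ℝ) else θs t x)
        (-(r x * jj π s x ^ 2 * (if s x = s (π x) then (1 : ℝ) else θs s₀ x))) S s₀ := by
    intro x _
    rw [jj_sq]
    by_cases hx : s x = s (π x)
    · simp only [hx, if_true]
      simpa using hasDerivWithinAt_const s₀ S (1 : ℝ)
    · simp only [hx, if_false]
      simpa using h x
  have h2 := HasDerivWithinAt.fun_finsetProd h1
  unfold wt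
  refine h2.congr_deriv ?_
  simp only [smul_eq_mul]
  unfold RR
  rw [Finset.sum_mul, ← Finset.sum_neg_distrib]
  refine Finset.sum_congr rfl fun x hx => ?_
  rw [← Finset.mul_prod_erase Finset.univ _ hx]
  ring

/-- Numerator of the expectation. -/
noncomputable def NN (μ : Equiv.Perm X → ℝ) (θ : X → ℝ)
    (f : Equiv.Perm X → (X → Fin 2) → ℝ) : ℝ :=
  ∑ π, ∑ s, μ π * wt θ π s * f π s

theorem EE_eq (μ : Equiv.Perm X → ℝ) (θ : X → ℝ) (f : Equiv.Perm X → (X → Fin 2) → ℝ) :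
    EE μ θ f = NN μ θ f / ZZ μ θ := rfl

theorem NN_hasDeriv (μ : Equiv.Perm X → ℝ)
    (h : ∀ x, HasDerivWithinAt (fun t => θs t x) (-(r x * θs s₀ x)) S s₀)
    (f : Equiv.Perm X → (X → Fin 2) → ℝ) :
    HasDerivWithinAt (fun t => NN μ (θs t) f)
      (-NN μ (θs s₀) (fun π s => RR r π s * f π s)) S s₀ := by
  unfold NN
  have h1 := HasDerivWithinAt.fun_sum (u := (Finset.univ : Finset (Equiv.Perm X)))
    (A := fun π t => ∑ s, μ π * wt (θs t) π s * f π s)
    (A' := fun π => ∑ s, μ π * (-(RR r π s * wt (θs s₀) π s)) * f π s) (s := S) (x := s₀)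
    (fun π _ => HasDerivWithinAt.fun_sum
      (fun s _ => ((wt_hasDeriv h π s).const_mul (μ π)).mul_const (f π s)))
  refine h1.congr_deriv ?_
  rw [← Finset.sum_neg_distrib]
  refine Finset.sum_congr rfl fun π _ => ?_
  rw [← Finset.sum_neg_distrib]
  exact Finset.sum_congr rfl fun s _ => by ring

theorem ZZ_eq (μ : Equiv.Perm X → ℝ) (θ : X → ℝ) : ZZ μ θ = NN μ θ (fun _ _ => 1) := by
  unfold ZZ NN; simp

theorem EE_hasDeriv {μ : Equiv.Perm X → ℝ}
    (h : ∀ x, HasDerivWithinAt (fun t => θs t x) (-(r x * θs s₀ x)) S s₀)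
    (hZ : ZZ μ (θs s₀) ≠ 0) (f : Equiv.Perm X → (X → Fin 2) → ℝ) :
    HasDerivWithinAt (fun t => EE μ (θs t) f)
      (-(EE μ (θs s₀) (fun π s => RR r π s * f π s) -
        EE μ (θs s₀) (RR r) * EE μ (θs s₀) f)) S s₀ := by
  have h1 := NN_hasDeriv μ h f
  have h2 := NN_hasDeriv μ h (fun _ _ => (1 : ℝ))
  have h3 : (fun t => EE μ (θs t) f) =
      fun t => NN μ (θs t) f / NN μ (θs t) (fun _ _ => 1) := by
    funext t; rw [EE_eq, ZZ_eq]
  rw [h3]
  have hZ' : NN μ (θs s₀) (fun _ _ => 1) ≠ 0 := by rwa [← ZZ_eq]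
  refine (h1.div h2 hZ').congr_deriv ?_
  rw [EE_eq, EE_eq, EE_eq, ZZ_eq]
  simp only [mul_one]
  have h4 : NN μ (θs s₀) (fun π s => RR r π s) = NN μ (θs s₀) (RR r) := rfl
  rw [h4]
  field_simp
  ring

end Deriv

theorem wt_continuous (π : Equiv.Perm X) (s : X → Fin 2) :
    Continuous fun θ : X → ℝ => wt θ π s := by
  unfold wt
  refine continuous_finsetProd _ fun x _ => ?_
  by_cases hx : s x = s (π x)
  · simp only [hx, if_true]; exact continuous_const
  · simp only [hx, if_false]; exact continuous_apply x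

theorem NN_continuous (μ : Equiv.Perm X → ℝ) (f : Equiv.Perm X → (X → Fin 2) → ℝ) :
    Continuous fun θ : X → ℝ => NN μ θ f := by
  unfold NN
  refine continuous_finsetSum _ fun π _ => continuous_finsetSum _ fun s _ => ?_
  exact (continuous_const.mul (wt_continuous π s)).mul continuous_const

/-- The lowering path. -/
noncomputable def path (θ θ' : X → ℝ) (s : ℝ) (x : X) : ℝ := max (θ' x) (Real.exp (-s) * θ x)

/-- The rates of the lowering path. -/
noncomputable def rate (θ θ' : X → ℝ) (s : ℝ) (x : X) : ℝ :=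
  if θ' x < Real.exp (-s) * θ x then 1 else 0

theorem path_hasDeriv {θ θ' : X → ℝ} (hθ : ∀ x, 0 ≤ θ x) (s : ℝ) (x : X) :
    HasDerivWithinAt (fun t => path θ θ' t x) (-(rate θ θ' s x * path θ θ' s x))
      (Set.Ici s) s := by
  have he : HasDerivAt (fun t : ℝ => Real.exp (-t) * θ x) (-(Real.exp (-s) * θ x)) s := by
    have h1 : HasDerivAt (fun t : ℝ => Real.exp (-t)) (-Real.exp (-s)) s := by
      have := (hasDerivAt_id s).neg.exp
      simpa using this
    exact (h1.mul_const (θ x)).congr_deriv (by ring)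
  unfold path rate
  by_cases h : θ' x < Real.exp (-s) * θ x
  · simp only [h, if_true, one_mul, max_eq_right h.le]
    have hev : ∀ᶠ t in 𝓝[Set.Ici s] s, max (θ' x) (Real.exp (-t) * θ x) =
        Real.exp (-t) * θ x := by
      have hc : ContinuousAt (fun t : ℝ => Real.exp (-t) * θ x) s := he.continuousAt
      have := hc.eventually (lt_mem_nhds h)
      exact (this.filter_mono nhdsWithin_le_nhds).mono fun t ht => max_eq_right ht.le
    exact he.hasDerivWithinAt.congr_of_eventuallyEq hev (by simp [max_eq_right h.le])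
  · simp only [h, if_false, zero_mul, neg_zero]
    have h' := not_lt.mp h
    have hev : ∀ t ∈ Set.Ici s, max (θ' x) (Real.exp (-t) * θ x) = θ' x := by
      intro t ht
      apply max_eq_left
      refine le_trans ?_ h'
      exact mul_le_mul_of_nonneg_right (Real.exp_le_exp.mpr (neg_le_neg ht)) (hθ x)
    exact (hasDerivWithinAt_const s (Set.Ici s) (θ' x)).congr hev (hev s Set.self_mem_Ici)

theorem path_zero {θ θ' : X → ℝ} (h : ∀ x, θ' x ≤ θ x) : path θ θ' 0 = θ := by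
  funext x
  simp [path, h x]

theorem path_nonneg {θ θ' : X → ℝ} (h0 : ∀ x, 0 ≤ θ' x) (s : ℝ) (x : X) : 0 ≤ path θ θ' s x :=
  (h0 x).trans (le_max_left _ _)

theorem path_le {θ θ' : X → ℝ} (h0 : ∀ x, 0 ≤ θ' x) (h : ∀ x, θ' x ≤ θ x) {s : ℝ} (hs : 0 ≤ s)
    (x : X) : path θ θ' s x ≤ θ x := by
  refine max_le (h x) ?_
  have h1 : Real.exp (-s) ≤ 1 := Real.exp_le_one_iff.mpr (by linarith)
  have h2 : 0 ≤ θ x := (h0 x).trans (h x)
  nlinarith

theorem path_continuous (θ θ' : X → ℝ) : Continuous fun s => path θ θ' s := by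
  refine continuous_pi fun x => ?_
  unfold path
  fun_prop

/-- Derivative of the off-diagonal conductances. -/
noncomputable def c0' (μ : Equiv.Perm X → ℝ) (θ : X → ℝ) (r : X → ℝ) (x y : X) : ℝ :=
  if x = y then 0 else
    EE μ θ (fun π s => RR r π s * (jj π s x * jj π s y)) -
      EE μ θ (RR r) * EE μ θ (fun π s => jj π s x * jj π s y)

theorem EE_RR (μ : Equiv.Perm X → ℝ) (θ : X → ℝ) (r : X → ℝ)
    (f : Equiv.Perm X → (X → Fin 2) → ℝ) :
    EE μ θ (fun π s => RR r π s * f π s) =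
      ∑ z, r z * EE μ θ (fun π s => jj π s z ^ 2 * f π s) := by
  have h1 : (fun (π : Equiv.Perm X) (s : X → Fin 2) => RR r π s * f π s) =
      fun π s => ∑ z, r z * (jj π s z ^ 2 * f π s) := by
    funext π s
    unfold RR
    rw [Finset.sum_mul]
    exact Finset.sum_congr rfl fun z _ => by ring
  rw [h1, EE_sum]
  exact Finset.sum_congr rfl fun z _ => EE_const_mul _ _ _ _

theorem netK_c0' (μ : Equiv.Perm X → ℝ) (θ : X → ℝ) (r : X → ℝ) (a : X → ℝ) :
    P361.LRO.netK (c0' μ θ r) a =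
      - ∑ z, r z * (EE μ θ (fun π s => jj π s z ^ 2 * (∑ x, a x * jj π s x) ^ 2) -
        vv μ θ z * KK μ θ a) := by
  unfold c0'
  rw [netK_offdiag]
  have h1 := netK_EE μ θ (RR r) a
  have h2 := KK_eq μ θ a
  have h3 : (1 / 2) * ∑ x, ∑ y,
      (EE μ θ (fun π s => RR r π s * (jj π s x * jj π s y)) -
        EE μ θ (RR r) * EE μ θ (fun π s => jj π s x * jj π s y)) * (a x - a y) ^ 2 =
      -((1 / 2) * ∑ x, ∑ y,
        (-(EE μ θ fun π s => RR r π s * (jj π s x * jj π s y))) * (a x - a y) ^ 2) +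
      EE μ θ (RR r) * ((1 / 2) * ∑ x, ∑ y, cc μ θ x y * (a x - a y) ^ 2) := by
    unfold cc
    simp only [Finset.mul_sum, ← Finset.sum_neg_distrib, ← Finset.sum_add_distrib]
    exact Finset.sum_congr rfl fun x _ => Finset.sum_congr rfl fun y _ => by ring
  rw [h3, h1, ← h2, EE_RR]
  have h4 : EE μ θ (RR r) = ∑ z, r z * vv μ θ z := by
    have := EE_RR μ θ r (fun _ _ => 1)
    simp only [mul_one] at this
    exact this
  rw [h4, Finset.sum_mul, ← Finset.sum_neg_distrib, ← Finset.sum_neg_distrib,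
    ← Finset.sum_add_distrib]
  exact Finset.sum_congr rfl fun z _ => by ring

theorem c0_hasDeriv {μ : Equiv.Perm X → ℝ} (hμ : Good μ) {θ θ' : X → ℝ} (h0 : ∀ x, 0 ≤ θ' x)
    (h : ∀ x, θ' x ≤ θ x) (s : ℝ) (x y : X) :
    HasDerivWithinAt (fun t => c0 μ (path θ θ' t) x y)
      (c0' μ (path θ θ' s) (rate θ θ' s) x y) (Set.Ici s) s := by
  have hθ : ∀ x, 0 ≤ θ x := fun x => (h0 x).trans (h x)
  by_cases hxy : x = y
  · simp only [c0, c0', hxy, if_true]
    exact hasDerivWithinAt_const _ _ _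
  · simp only [c0, c0', hxy, if_false]
    have hZ : ZZ μ (path θ θ' s) ≠ 0 := (ZZ_pos hμ.nn hμ.pos (path_nonneg h0 s)).ne'
    have h1 := EE_hasDeriv (μ := μ) (S := Set.Ici s) (fun x => path_hasDeriv hθ s x) hZ
      (fun π s => jj π s x * jj π s y)
    have h2 := h1.neg
    simp only [neg_neg] at h2
    exact h2

theorem EE_continuousOn {μ : Equiv.Perm X → ℝ} (hμ : Good μ)
    (f : Equiv.Perm X → (X → Fin 2) → ℝ) :
    ContinuousOn (fun θ : X → ℝ => EE μ θ f) {θ | ∀ x, 0 ≤ θ x} := by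
  have h3 : (fun θ : X → ℝ => EE μ θ f) =
      fun θ => NN μ θ f / NN μ θ (fun _ _ => 1) := by
    funext t; rw [EE_eq, ZZ_eq]
  rw [h3]
  refine (NN_continuous μ f).continuousOn.div (NN_continuous μ _).continuousOn ?_
  intro θ hθ
  rw [← ZZ_eq]
  exact (ZZ_pos hμ.nn hμ.pos hθ).ne'

theorem sqrt_mag_le {m ε : ℝ} (hε : 0 ≤ ε) (h : 1 - ε ^ 2 ≤ m) : Real.sqrt (1 - m ^ 2) ≤ 2 * ε := by
  rw [Real.sqrt_le_left (by positivity)]
  nlinarith [sq_nonneg ε, sq_nonneg (m - 1)]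

/-- The lowering path is a `NetFlow`. -/
theorem netFlow {μ : Equiv.Perm X → ℝ} (hμ : Good μ) {θ θ' : X → ℝ} {E G : Finset X} {ε : ℝ}
    (hε : 0 ≤ ε) (h0 : ∀ x, 0 ≤ θ' x) (h : ∀ x, θ' x ≤ θ x) (h1 : ∀ x, θ x ≤ 1)
    (hE : ∀ x ∈ E, θ' x = θ x) (hG : ∀ x ∈ G, θ' x = θ x) (hEG : Disjoint E G)
    (hmag : ∀ s, 0 ≤ s → ∀ z, θ' z < θ z →
      Real.sqrt (1 - mag μ (path θ θ' s) z ^ 2) ≤ 2 * ε) :
    P361.LRO.NetFlow (fun s => c0 μ (path θ θ' s)) (fun s => c0' μ (path θ θ' s) (rate θ θ' s))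
      (rate θ θ') (E : Set X) (G : Set X) ε := by
  have hp0 : ∀ s x, 0 ≤ path θ θ' s x := fun s x => path_nonneg h0 s x
  have hp1 : ∀ s, 0 ≤ s → ∀ x, path θ θ' s x ≤ 1 := fun s hs x =>
    (path_le h0 h hs x).trans (h1 x)
  have hrate : ∀ s, 0 ≤ s → ∀ z, θ' z = θ z → rate θ θ' s z = 0 := by
    intro s hs z hz
    unfold rate
    rw [if_neg]
    rw [hz, not_lt]
    have h1 : Real.exp (-s) ≤ 1 := Real.exp_le_one_iff.mpr (by linarith)
    have h2 : 0 ≤ θ z := (h0 z).trans (h z)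
    nlinarith
  refine ⟨by exact_mod_cast hEG, ?_, ?_, ?_, ?_, ?_, ?_, ?_, ?_, hε, ?_⟩
  · intro s hs x y
    show 0 ≤ c0 μ (path θ θ' s) x y
    unfold c0
    split_ifs with hxy
    · exact le_rfl
    · exact hμ.ccnn _ (fun x => ⟨hp0 s x, hp1 s hs x⟩) x y hxy
  · intro s _ x y
    show c0 μ (path θ θ' s) x y = c0 μ (path θ θ' s) y x
    unfold c0
    by_cases hxy : x = y
    · simp [hxy]
    · simp only [hxy, Ne.symm hxy, if_false]
      exact cc_comm _ _ _ _
  · intro x y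
    show ContinuousOn (fun s => c0 μ (path θ θ' s) x y) (Set.Ici 0)
    unfold c0
    by_cases hxy : x = y
    · simp only [hxy, if_true]; exact continuousOn_const
    · simp only [hxy, if_false]
      unfold cc
      refine ContinuousOn.neg ?_
      exact (EE_continuousOn hμ _).comp (path_continuous θ θ').continuousOn
        (fun s _ => fun x => hp0 s x)
  · intro s _ x y
    exact c0_hasDeriv hμ h0 h s x y
  · intro s _ z
    unfold rate; split_ifs <;> norm_num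
  · intro s _ z
    unfold rate; split_ifs <;> norm_num
  · intro s hs z hz
    exact hrate s hs z (hE z (by exact_mod_cast hz))
  · intro s hs z hz
    exact hrate s hs z (hG z (by exact_mod_cast hz))
  · intro s hs a
    show _ ≤ P361.LRO.netK (c0' μ (path θ θ' s) (rate θ θ' s)) a
    rw [netK_c0', neg_le_neg_iff]
    refine Finset.sum_le_sum fun z _ => ?_
    show _ ≤ rate θ θ' s z * ((P361.LRO.netQ (c0 μ (path θ θ' s)) a z) ^ 2 /
      P361.LRO.netV (c0 μ (path θ θ' s)) z + 2 * ε * P361.LRO.netStar (c0 μ (path θ θ' s)) a z)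
    by_cases hz : θ' z < Real.exp (-s) * θ z
    · have hr : rate θ θ' s z = 1 := by simp [rate, hz]
      rw [hr, one_mul, one_mul, netQ_c0, netV_c0, netStar_c0]
      have hzpos : 0 < path θ θ' s z := lt_of_lt_of_le (lt_of_le_of_lt (h0 z) hz)
        (le_max_right _ _)
      have hzl : θ' z < θ z := by
        refine lt_of_lt_of_le hz ?_
        have h1 : Real.exp (-s) ≤ 1 := Real.exp_le_one_iff.mpr (by linarith)
        have h2 : 0 ≤ θ z := (h0 z).trans (h z)
        nlinarith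
      have h3 := hμ.one (path θ θ' s) (fun x => ⟨hp0 s x, hp1 s hs x⟩) z hzpos a
      have h4 := hmag s hs z hzl
      have h5 : 0 ≤ ∑ x, cc μ (path θ θ' s) z x * (a x - a z) ^ 2 := by
        refine Finset.sum_nonneg fun x _ => ?_
        by_cases hxz : z = x
        · subst hxz; simp
        · exact mul_nonneg (hμ.ccnn _ (fun x => ⟨hp0 s x, hp1 s hs x⟩) z x hxz) (sq_nonneg _)
      rw [neg_sq]
      refine h3.trans ?_
      have h6 := mul_le_mul_of_nonneg_right h4 h5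
      linarith
    · have hr : rate θ θ' s z = 0 := by simp [rate, hz]
      rw [hr, zero_mul, zero_mul]

theorem LB_iff_netCap {μ : Equiv.Perm X → ℝ} (hμ : Good μ) {θ : X → ℝ}
    (hθ : ∀ x, 0 ≤ θ x ∧ θ x ≤ 1) {E G : Finset X} (hEG : Disjoint E G) (C : ℝ) :
    LB μ θ E G C ↔ C ≤ P361.LRO.netCap (c0 μ θ) (E : Set X) (G : Set X) := by
  have hnn : ∀ x y, 0 ≤ c0 μ θ x y := by
    intro x y
    unfold c0
    split_ifs with hxy
    · exact le_rfl
    · exact hμ.ccnn _ hθ x y hxy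
  have hd : Disjoint (E : Set X) (G : Set X) := by exact_mod_cast hEG
  constructor
  · intro hLB
    obtain ⟨u, hu, h1, _⟩ := P361.LRO.exists_min (c0 μ θ) hd
    rw [← h1, netK_c0]
    exact hLB u (fun x hx => hu.2.1 x (by exact_mod_cast hx))
      (fun x hx => hu.2.2 x (by exact_mod_cast hx))
  · intro hC a ha1 ha0
    rw [← netK_c0]
    exact hC.trans (P361.LRO.netCap_le' hnn (fun x hx => ha1 x (by exact_mod_cast hx))
      (fun x hx => ha0 x (by exact_mod_cast hx)))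

/-- The end of the path is reached at a finite time. -/
theorem exists_time {θ θ' : X → ℝ} (h0 : ∀ x, 0 ≤ θ' x) (h : ∀ x, θ' x ≤ θ x)
    (hpos : ∀ x, θ' x < θ x → 0 < θ' x) : ∃ T : ℝ, 0 ≤ T ∧ path θ θ' T = θ' := by
  have h1 : ∀ x, ∀ᶠ T : ℝ in atTop, Real.exp (-T) * θ x ≤ θ' x := by
    intro x
    rcases (h x).lt_or_eq with hx | hx
    · have ht : Tendsto (fun T : ℝ => Real.exp (-T) * θ x) atTop (𝓝 (0 * θ x)) :=
        (Real.tendsto_exp_neg_atTop_nhds_zero).mul_const _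
      rw [zero_mul] at ht
      exact (ht.eventually (gt_mem_nhds (hpos x hx))).mono fun T hT => le_of_lt hT
    · filter_upwards [eventually_ge_atTop (0 : ℝ)] with T hT
      rw [hx]
      have h1 : Real.exp (-T) ≤ 1 := Real.exp_le_one_iff.mpr (by linarith)
      have h2 : 0 ≤ θ x := (h0 x).trans (h x)
      nlinarith
  obtain ⟨T, hT, hT0⟩ := ((eventually_all.mpr h1).and (eventually_ge_atTop (0 : ℝ))).exists
  exact ⟨T, hT0, funext fun x => max_eq_left (hT x)⟩

/-- **Lowering, primal form** (`2 ε` bounds `sqrt (1 - M²)`). -/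
theorem LB_lower' {μ : Equiv.Perm X → ℝ} (hμ : Good μ) {θ θ' : X → ℝ} {E G : Finset X}
    {ε S B C : ℝ} (hε : 0 ≤ ε) (h0 : ∀ x, 0 ≤ θ' x) (h : ∀ x, θ' x ≤ θ x) (h1 : ∀ x, θ x ≤ 1)
    (hE : ∀ x ∈ E, θ' x = θ x) (hG : ∀ x ∈ G, θ' x = θ x) (hEG : Disjoint E G)
    (hpos : ∀ x, θ' x < θ x → 0 < θ' x)
    (hmag : ∀ s, 0 ≤ s → ∀ z, θ' z < θ z →
      Real.sqrt (1 - mag μ (path θ θ' s) z ^ 2) ≤ 2 * ε)
    (hS : 0 ≤ S) (hB : ∑ z, (if θ' z < θ z then θ z else 0) ≤ B) (hC : LB μ θ E G C) :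
    LB μ θ' E G (Real.exp (-(4 * ε * S)) * C - 2 * ε * B * Real.exp (-S)) := by
  have H := netFlow hμ hε h0 h h1 hE hG hEG hmag
  obtain ⟨T, hT0, hT⟩ := exists_time h0 h hpos
  have hθ0 : ∀ x, 0 ≤ θ x := fun x => (h0 x).trans (h x)
  have hB0 : 0 ≤ B := by
    refine le_trans (Finset.sum_nonneg fun z _ => ?_) hB
    split_ifs
    · exact hθ0 z
    · exact le_rfl
  have hBB : ∀ s, 0 ≤ s →
      ∑ z, rate θ θ' s z * P361.LRO.netV (c0 μ (path θ θ' s)) z ≤ B * Real.exp (-s) := by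
    intro s hs
    have h2 : B * Real.exp (-s) ≥ (∑ z, (if θ' z < θ z then θ z else 0)) * Real.exp (-s) :=
      mul_le_mul_of_nonneg_right hB (Real.exp_pos _).le
    refine le_trans ?_ h2
    rw [Finset.sum_mul]
    refine Finset.sum_le_sum fun z _ => ?_
    rw [netV_c0]
    have hexp : Real.exp (-s) ≤ 1 := Real.exp_le_one_iff.mpr (by linarith)
    by_cases hz : θ' z < Real.exp (-s) * θ z
    · have hzl : θ' z < θ z := by
        refine lt_of_lt_of_le hz ?_
        have h2 : 0 ≤ θ z := hθ0 z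
        nlinarith
      have h3 := hμ.vle (path θ θ' s)
        (fun x => ⟨path_nonneg h0 s x, (path_le h0 h hs x).trans (h1 x)⟩) z
      have h4 : path θ θ' s z = Real.exp (-s) * θ z := by
        simp [path, max_eq_right hz.le]
      simp only [rate, hz, hzl, if_true, one_mul]
      rw [h4] at h3
      linarith
    · simp only [rate, hz, if_false, zero_mul]
      refine mul_nonneg ?_ (Real.exp_pos _).le
      split_ifs
      · exact hθ0 z
      · exact le_rfl
  have key := H.cap_lower hB0 hBB hS hT0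
  have hθ1 : ∀ x, 0 ≤ θ x ∧ θ x ≤ 1 := fun x => ⟨hθ0 x, h1 x⟩
  have hθ'1 : ∀ x, 0 ≤ θ' x ∧ θ' x ≤ 1 := fun x => ⟨h0 x, (h x).trans (h1 x)⟩
  rw [LB_iff_netCap hμ hθ'1 hEG]
  rw [LB_iff_netCap hμ hθ1 hEG] at hC
  simp only [hT, path_zero h] at key
  refine le_trans ?_ key
  have := mul_le_mul_of_nonneg_left hC (Real.exp_pos (-(4 * ε * S))).le
  linarith

/-- **Lowering, primal form.** -/
theorem LB_lower {μ : Equiv.Perm X → ℝ} (hμ : Good μ) {θ θ' : X → ℝ} {E G : Finset X}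
    {ε S B C : ℝ} (hε : 0 ≤ ε) (h0 : ∀ x, 0 ≤ θ' x) (h : ∀ x, θ' x ≤ θ x) (h1 : ∀ x, θ x ≤ 1)
    (hE : ∀ x ∈ E, θ' x = θ x) (hG : ∀ x ∈ G, θ' x = θ x) (hEG : Disjoint E G)
    (hpos : ∀ x, θ' x < θ x → 0 < θ' x)
    (hmag : ∀ s, 0 ≤ s → ∀ z, θ' z < θ z → 1 - ε ^ 2 ≤ mag μ (path θ θ' s) z)
    (hS : 0 ≤ S) (hB : ∑ z, (if θ' z < θ z then θ z else 0) ≤ B) (hC : LB μ θ E G C) :
    LB μ θ' E G (Real.exp (-(4 * ε * S)) * C - 2 * ε * B * Real.exp (-S)) :=
  LB_lower' hμ hε h0 h h1 hE hG hEG hpos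
    (fun s hs z hz => sqrt_mag_le hε (hmag s hs z hz)) hS hB hC

/-- 118's form of the primal ODE. -/
theorem ode_LB {μ : Equiv.Perm X → ℝ} (hμ : Good μ) {θ0 θ1 : X → ℝ}
    (h0 : ∀ x, 0 ≤ θ0 x) (h01 : ∀ x, θ0 x ≤ θ1 x) (h1 : ∀ x, θ1 x ≤ 1)
    (hpos : ∀ x, θ0 x < θ1 x → 0 < θ0 x) {E G : Finset X} (hEG : Disjoint E G)
    (hE : ∀ x ∈ E, θ0 x = θ1 x) (hG : ∀ x ∈ G, θ0 x = θ1 x) {τ : ℝ} (hτ : 0 ≤ τ)
    (hmag : ∀ s : ℝ, 0 ≤ s → ∀ z, θ0 z < θ1 z →
      Real.sqrt (1 - mag μ (fun x => max (θ0 x) (Real.exp (-s) * θ1 x)) z ^ 2) ≤ τ)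
    {c : ℝ} (hc : LB μ θ1 E G c) {S : ℝ} (hS : 0 ≤ S) :
    LB μ θ0 E G (Real.exp (-(2 * τ * S)) * c - τ * Real.exp (-S) *
      ∑ z ∈ univ.filter (fun z => θ0 z < θ1 z), θ1 z) := by
  have h := LB_lower' hμ (ε := τ / 2) (by positivity) h0 h01 h1 hE hG hEG hpos
    (fun s hs z hz => by
      have := hmag s hs z hz
      rw [show 2 * (τ / 2) = τ by ring]
      exact this) hS (B := ∑ z ∈ univ.filter (fun z => θ0 z < θ1 z), θ1 z)
    (by rw [Finset.sum_filter]) hc
  have e : Real.exp (-(4 * (τ / 2) * S)) * c - 2 * (τ / 2) *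
      (∑ z ∈ univ.filter (fun z => θ0 z < θ1 z), θ1 z) * Real.exp (-S) =
      Real.exp (-(2 * τ * S)) * c - τ * Real.exp (-S) *
      ∑ z ∈ univ.filter (fun z => θ0 z < θ1 z), θ1 z := by
    rw [show 4 * (τ / 2) * S = 2 * τ * S by ring]
    ring
  rw [e] at h
  exact h

/-! ### Dual form -/

/-- `v_z = θ M / (1 + θ M)`. -/
theorem vv_mag {μ : Equiv.Perm X → ℝ} (hμ : Good μ) {θ : X → ℝ} (hθ : ∀ x, 0 ≤ θ x) (z : X) :
    vv μ θ z = θ z * mag μ θ z / (1 + θ z * mag μ θ z) := by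
  set A : ℝ := ∑ π, ∑ s, if s z = s (π z) then 0 else μ π * wt (Function.update θ z 1) π s with hA
  set B : ℝ := ∑ π, ∑ s : X → Fin 2, if s z = s (π z) then μ π * wt θ π s else 0 with hB
  have hwt : ∀ (π : Equiv.Perm X) (s : X → Fin 2), ¬ s z = s (π z) →
      wt θ π s = θ z * wt (Function.update θ z 1) π s := by
    intro π s hs
    unfold wt
    rw [← Finset.mul_prod_erase Finset.univ _ (Finset.mem_univ z),
      ← Finset.mul_prod_erase (s := Finset.univ)
        (f := fun x => if s x = s (π x) then (1 : ℝ) else Function.update θ z 1 x)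
        (Finset.mem_univ z)]
    simp only [hs, if_false, Function.update_self, one_mul]
    congr 1
    refine Finset.prod_congr rfl fun x hx => ?_
    rw [Function.update_of_ne (Finset.ne_of_mem_erase hx)]
  have hnum : ∑ π, ∑ s, μ π * wt θ π s * jj π s z ^ 2 = θ z * A := by
    rw [hA, Finset.mul_sum]
    refine Finset.sum_congr rfl fun π _ => ?_
    rw [Finset.mul_sum]
    refine Finset.sum_congr rfl fun s _ => ?_
    rw [jj_sq]
    by_cases hs : s z = s (π z)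
    · simp [hs]
    · simp only [hs, if_false, hwt π s hs]; ring
  have hZ : ZZ μ θ = B + θ z * A := by
    rw [hA, hB, Finset.mul_sum, ← Finset.sum_add_distrib]
    unfold ZZ
    refine Finset.sum_congr rfl fun π _ => ?_
    rw [Finset.mul_sum, ← Finset.sum_add_distrib]
    refine Finset.sum_congr rfl fun s _ => ?_
    by_cases hs : s z = s (π z)
    · simp [hs]
    · simp only [hs, if_false, hwt π s hs]; ring
  have hBpos : 0 < B := by
    refine lt_of_lt_of_le hμ.pos ?_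
    rw [hB]
    refine Finset.sum_le_sum fun π _ => ?_
    have h3 : ∀ s ∈ (Finset.univ : Finset (X → Fin 2)),
        0 ≤ (if s z = s (π z) then μ π * wt θ π s else 0) := by
      intro s _
      split_ifs
      · exact mul_nonneg (hμ.nn π) (wt_nonneg hθ π s)
      · exact le_rfl
    have h4 := Finset.single_le_sum h3 (Finset.mem_univ (fun _ : X => (0 : Fin 2)))
    simpa [wt] using h4
  have hmag : mag μ θ z = A / B := rfl
  have hZpos : 0 < ZZ μ θ := ZZ_pos hμ.nn hμ.pos hθ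
  have hvv : vv μ θ z = θ z * A / (B + θ z * A) := by
    unfold vv EE
    rw [hnum, hZ]
  rw [hvv, hmag]
  rw [hZ] at hZpos
  have h1 : 1 + θ z * (A / B) = (B + θ z * A) / B := by field_simp
  rw [h1]
  field_simp

theorem vv_ge {μ : Equiv.Perm X → ℝ} (hμ : Good μ) {θ : X → ℝ} (hθ : ∀ x, 0 ≤ θ x ∧ θ x ≤ 1)
    (z : X) (hm : 1 / 2 ≤ mag μ θ z) : θ z / 4 ≤ vv μ θ z := by
  rw [vv_mag hμ (fun x => (hθ x).1) z]
  have h1 := (hθ z).1
  have h2 := (hθ z).2
  set m := mag μ θ z with hm'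
  have h3 : 0 < 1 + θ z * m := by nlinarith
  rw [div_le_div_iff₀ (by norm_num) h3]
  nlinarith [mul_nonneg h1 (sub_nonneg.mpr hm), mul_nonneg h1 h1,
    mul_nonneg (mul_nonneg h1 (sub_nonneg.mpr h2)) (sub_nonneg.mpr hm)]

/-- **Lowering, dual form.** -/
theorem ode_RB {μ : Equiv.Perm X → ℝ} (hμ : Good μ) {θ0 θ1 : X → ℝ}
    (h0 : ∀ x, 0 ≤ θ0 x) (h01 : ∀ x, θ0 x ≤ θ1 x) (h1 : ∀ x, θ1 x ≤ 1)
    {E : Finset X}
    (hE : ∀ x ∈ E, θ0 x = θ1 x) {q : X → ℝ} (hq1 : ∑ x, q x = 1) {τ : ℝ} (hτ : 0 ≤ τ)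
    (hmag : ∀ s : ℝ, 0 ≤ s → ∀ z, θ0 z < θ1 z →
      Real.sqrt (1 - mag μ (fun x => max (θ0 x) (Real.exp (-s) * θ1 x)) z ^ 2) ≤ τ ∧
        1 / 2 ≤ mag μ (fun x => max (θ0 x) (Real.exp (-s) * θ1 x)) z)
    {R : ℝ} (hR0 : 0 ≤ R) (hR : RB μ θ1 E q R) {S : ℝ} (hS : 0 ≤ S)
    (hS1 : ∀ x, θ1 x ≤ Real.exp S * θ0 x) :
    RB μ θ0 E q (Real.exp (2 * τ * S) *
      (R + 4 * (Real.exp S - 1) *
        ∑ z ∈ univ.filter (fun z => θ0 z < θ1 z), q z ^ 2 / θ1 z)) := by
  have H := netFlow hμ (θ := θ1) (θ' := θ0) (E := E) (G := ∅) (ε := τ / 2) (by positivity)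
    h0 h01 h1 hE (by simp) (by simp)
    (fun s hs z hz => by
      have := (hmag s hs z hz).1
      rw [show 2 * (τ / 2) = τ by ring]
      exact this)
  have hθ1 : ∀ x, 0 ≤ θ1 x := fun x => (h0 x).trans (h01 x)
  have hend : path θ1 θ0 S = θ0 := by
    funext x
    refine max_eq_left ?_
    have h3 := mul_le_mul_of_nonneg_left (hS1 x) (Real.exp_pos (-S)).le
    rw [← mul_assoc, ← Real.exp_add, neg_add_cancel, Real.exp_zero, one_mul] at h3
    exact h3
  have hvz : ∀ s, 0 ≤ s → ∀ z, θ0 z < Real.exp (-s) * θ1 z →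
      θ0 z < θ1 z ∧ 0 < θ1 z ∧ Real.exp (-s) * θ1 z / 4 ≤ vv μ (path θ1 θ0 s) z := by
    intro s hs z hz
    have hexp : Real.exp (-s) ≤ 1 := Real.exp_le_one_iff.mpr (by linarith)
    have hzl : θ0 z < θ1 z := by
      refine lt_of_lt_of_le hz ?_
      nlinarith [hθ1 z]
    have h4 : path θ1 θ0 s z = Real.exp (-s) * θ1 z := by simp [path, max_eq_right hz.le]
    refine ⟨hzl, (h0 z).trans_lt hzl, ?_⟩
    have h5 := vv_ge hμ (θ := path θ1 θ0 s)
      (fun x => ⟨path_nonneg h0 s x, (path_le h0 h01 hs x).trans (h1 x)⟩) z (hmag s hs z hzl).2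
    rwa [h4] at h5
  set D : ℝ := 4 * ∑ z ∈ univ.filter (fun z => θ0 z < θ1 z), q z ^ 2 / θ1 z with hD
  have hD0 : 0 ≤ D := by
    rw [hD]
    refine mul_nonneg (by norm_num) (Finset.sum_nonneg fun z _ => ?_)
    exact div_nonneg (sq_nonneg _) (hθ1 z)
  have hq : ∀ s, 0 ≤ s → s ≤ S → ∑ z, rate θ1 θ0 s z *
      (q z ^ 2 / P361.LRO.netV (c0 μ (path θ1 θ0 s)) z) ≤ D * Real.exp s := by
    intro s hs _
    rw [hD, Finset.sum_filter, mul_assoc, Finset.sum_mul, Finset.mul_sum]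
    refine Finset.sum_le_sum fun z _ => ?_
    rw [netV_c0]
    by_cases hz : θ0 z < Real.exp (-s) * θ1 z
    · obtain ⟨hzl, hpz, hv⟩ := hvz s hs z hz
      simp only [rate, hz, hzl, if_true, one_mul]
      have hpos1 : 0 < Real.exp (-s) * θ1 z / 4 := by positivity
      calc q z ^ 2 / vv μ (path θ1 θ0 s) z ≤ q z ^ 2 / (Real.exp (-s) * θ1 z / 4) :=
            div_le_div_of_nonneg_left (sq_nonneg _) hpos1 hv
        _ = 4 * (q z ^ 2 / θ1 z * Real.exp s) := by
            rw [Real.exp_neg]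
            have := Real.exp_pos s
            field_simp
    · simp only [rate, hz, if_false, zero_mul]
      split_ifs
      · exact mul_nonneg (by norm_num) (mul_nonneg (div_nonneg (sq_nonneg _) (hθ1 z))
          (Real.exp_pos _).le)
      · simp
  have hW : ∀ s, 0 ≤ s → s ≤ S → ∑ z, rate θ1 θ0 s z *
      (P361.LRO.netV (c0 μ (path θ1 θ0 s)) z)⁻¹ ≤
      ∑ z ∈ univ.filter (fun z => θ0 z < θ1 z), 4 * Real.exp S / θ1 z := by
    intro s hs hsS
    rw [Finset.sum_filter]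
    refine Finset.sum_le_sum fun z _ => ?_
    rw [netV_c0]
    by_cases hz : θ0 z < Real.exp (-s) * θ1 z
    · obtain ⟨hzl, hpz, hv⟩ := hvz s hs z hz
      simp only [rate, hz, hzl, if_true, one_mul]
      have hpos1 : 0 < Real.exp (-s) * θ1 z / 4 := by positivity
      calc (vv μ (path θ1 θ0 s) z)⁻¹ ≤ (Real.exp (-s) * θ1 z / 4)⁻¹ :=
            inv_anti₀ hpos1 hv
        _ = 4 * Real.exp s / θ1 z := by
            rw [Real.exp_neg]
            have := Real.exp_pos s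
            field_simp
        _ ≤ 4 * Real.exp S / θ1 z := by
            have := Real.exp_le_exp.mpr hsS
            gcongr
    · simp only [rate, hz, if_false, zero_mul]
      split_ifs
      · have := hθ1 z
        positivity
      · exact le_rfl
  intro a ha
  have key := H.RB_lower q hq1 (T := S) (D := D) (R := R) hS hD0 hR0 hq hW
    (fun a ha => by
      rw [path_zero h01, netK_c0]
      exact hR a (fun x hx => ha x (by exact_mod_cast hx)))
    (a := a) (fun x hx => ha x (by exact_mod_cast hx))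
  rw [hend, netK_c0] at key
  refine key.trans (le_of_eq ?_)
  rw [hD, show 4 * (τ / 2) * S = 2 * τ * S by ring]
  ring

end Vale.Agent.P361.LRO.Net
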