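import Vale.Agent.P361.LRO.Net.MLow

/-!
P361 LRO, block (6), master file, part 2: the physical conductances satisfy `Ind.Local`.
-/

namespace Vale.Agent.P361.LRO.Net

open Finset Filter Vale.Agent.P361.LRO

noncomputable section

/-- LOC with the constant `cl` (form of `Skel/Low.lean`, `Loc/LowLoc.lean`). -/
def LocBound (cl : ℝ) : Prop :=
  ∀ {V : Type} [Fintype V] [DecidableEq V] (L : List (V × V)),
    (∀ x, (L.filter fun e => e.1 = x ∨ e.2 = x).length ≤ 6) →
    ∀ (β : ℝ), 1 ≤ β → ∀ N : ℕ, 8 * β ≤ N → ∀ h T : V → ℝ,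
    (∀ x, 0 ≤ h x ∧ h x ≤ 1) → (∀ x, 0 ≤ T x ∧ T x ≤ 1) →
    (∀ (k k' : Fin (N + 1)) (x : V), 0 < k → k < k' → ((k' : ℝ) - (k : ℝ)) * β / N ≤ 1 →
      cl * (β * h x / (2 * N)) ^ 2 ≤ cc (phys L β N) (th β N h T) (k, x) (k', x)) ∧
    (∀ (k k' : Fin (N + 1)) (x y : V), 0 < k → k < k' → 1 / 4 ≤ ((k' : ℝ) - (k : ℝ)) * β / N →
      ((k' : ℝ) - (k : ℝ)) * β / N ≤ 1 → ((x, y) ∈ L ∨ (y, x) ∈ L) → x ≠ y →
      cl * (β * h x / (2 * N)) * (β * h y / (2 * N)) ≤
        cc (phys L β N) (th β N h T) (k, x) (k', y)) ∧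
    (∀ (k : Fin (N + 1)) (x : V), 0 < k → (k : ℝ) * β / N ≤ 1 →
      cl * T x * (β * h x / (2 * N)) ≤ cc (phys L β N) (th β N h T) (0, x) (k, x))

theorem mem_edges {n : ℕ} [NeZero n] (x : Tor n) (i : Fin 3) :
    (x, x + Pi.single i 1) ∈ edges n := by
  unfold edges
  rw [List.mem_map]
  exact ⟨(x, i), by simp, rfl⟩

theorem edges_deg {n : ℕ} [NeZero n] (x : Tor n) :
    ((edges n).filter fun e => e.1 = x ∨ e.2 = x).length ≤ 6 := by
  unfold edges
  rw [List.filter_map, List.length_map]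
  have hnd : ((Finset.univ : Finset (Tor n × Fin 3)).toList).Nodup := Finset.nodup_toList _
  set p : Tor n × Fin 3 → Bool :=
    (fun e : Tor n × Tor n => decide (e.1 = x ∨ e.2 = x)) ∘ fun z => (z.1, z.1 + Pi.single z.2 1)
    with hp
  have h1 : (((Finset.univ : Finset (Tor n × Fin 3)).toList).filter p).length =
      ((((Finset.univ : Finset (Tor n × Fin 3)).toList).filter p).toFinset).card :=
    (List.toFinset_card_of_nodup (hnd.filter p)).symm
  rw [h1]
  have h2 : (((Finset.univ : Finset (Tor n × Fin 3)).toList).filter p).toFinset ⊆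
      ((Finset.univ : Finset (Fin 3)).image fun i => (x, i)) ∪
        ((Finset.univ : Finset (Fin 3)).image fun i => (x - Pi.single i 1, i)) := by
    intro z hz
    rw [List.mem_toFinset, List.mem_filter] at hz
    have h3 := hz.2
    simp only [hp, Function.comp, decide_eq_true_eq] at h3
    rw [Finset.mem_union, Finset.mem_image, Finset.mem_image]
    rcases h3 with h3 | h3
    · exact Or.inl ⟨z.2, Finset.mem_univ _, Prod.ext h3.symm rfl⟩
    · exact Or.inr ⟨z.2, Finset.mem_univ _, Prod.ext (by simp [← h3]) rfl⟩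
  refine (Finset.card_le_card h2).trans ((Finset.card_union_le _ _).trans ?_)
  have h4 := Finset.card_image_le (s := (Finset.univ : Finset (Fin 3))) (f := fun i => (x, i))
  have h5 := Finset.card_image_le (s := (Finset.univ : Finset (Fin 3)))
    (f := fun i => (x - (Pi.single i 1 : Tor n), i))
  rw [Finset.card_univ, Fintype.card_fin] at h4 h5
  omega

theorem half_le_tanh {y : ℝ} (h0 : 0 ≤ y) (h1 : y ≤ 1) : y / 2 ≤ Real.tanh y := by
  rw [Real.tanh_eq_sinh_div_cosh, le_div_iff₀ (Real.cosh_pos y)]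
  have h2 : y ≤ Real.sinh y := Real.self_le_sinh_iff.2 h0
  have h3 : Real.cosh y ≤ 2 := by
    have := Real.cosh_le_cosh.2 (show |y| ≤ |(1 : ℝ)| by
      rw [abs_of_nonneg h0, abs_one]; exact h1)
    refine this.trans ?_
    rw [Real.cosh_eq]
    have he := Real.exp_one_lt_d9
    have he2 : Real.exp (-1) ≤ 1 := Real.exp_le_one_iff.2 (by norm_num)
    linarith
  have h4 := Real.cosh_pos y
  nlinarith

theorem local_cF {n N W m : ℕ} [NeZero n] (hn : 2 ≤ n) {β K cl : ℝ} {b : Finset (Tor n)}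
    {h : Tor n → ℝ} (hcl : 0 < cl) (hL : LocBound cl) (hβ : 1 ≤ β) (hN8 : 8 * β ≤ N)
    (hN : N = m * W) (hW : 0 < W) (hw : Ind.Win β m)
    (hG : Good (phys (edges n) β N)) (hK : 0 ≤ K) (hb : b.Nonempty) (hKb : K ≤ 2 * b.card)
    (hh : ∀ x, 0 ≤ h x ∧ h x ≤ 1) :
    Ind.Local n N W β K (cl / 8) b h (cF n β N (blk K b) h) := by
  have hb0 : (0 : ℝ) < b.card := by exact_mod_cast hb.card_pos
  have hNp : (0 : ℝ) < N := by linarith
  have hβ0 : (0 : ℝ) < β := by linarith
  have hm0 : (0 : ℝ) < m := by exact_mod_cast hw.pos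
  have hW0 : (0 : ℝ) < W := by exact_mod_cast hW
  have hT : ∀ x, 0 ≤ blk K b x ∧ blk K b x ≤ 1 := by
    intro x
    unfold blk
    split_ifs
    · refine ⟨?_, (Real.tanh_lt_one _).le⟩
      rw [Real.tanh_eq_sinh_div_cosh]
      exact div_nonneg (Real.sinh_nonneg_iff.2 (by positivity)) (Real.cosh_pos _).le
    · norm_num
  have hθ : ∀ z, 0 ≤ th β N h (blk K b) z ∧ th β N h (blk K b) z ≤ 1 := fun z =>
    ⟨th_nonneg hβ0.le (fun x => (hh x).1) (fun x => (hT x).1) z,
      th_le_one hβ0.le (by linarith) (fun x => (hh x).2) (fun x => (hT x).2) z⟩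
  obtain ⟨l1, l2, l3⟩ := hL (edges n) (edges_deg (n := n)) β hβ N hN8 h (blk K b) hh hT
  have hsymm : ∀ u v, cF n β N (blk K b) h u v = cF n β N (blk K b) h v u := by
    intro u v
    unfold cF c0
    by_cases huv : u = v
    · subst huv; rfl
    · rw [if_neg huv, if_neg (Ne.symm huv), cc_comm]
  have hval : ∀ u v, u ≠ v → cF n β N (blk K b) h u v =
      cc (phys (edges n) β N) (th β N h (blk K b)) u v := fun u v huv => if_neg huv
  have hNm : (N : ℝ) = m * W := by rw [hN]; push_cast; ring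
  have hWN : (W : ℝ) * β / N = β / m := by rw [hNm]; field_simp
  have cast_fin : ∀ k l : Fin (N + 1), (((l : ℕ) : ℝ) - ((k : ℕ) : ℝ)) = ((l : ℝ) - (k : ℝ)) :=
    fun k l => rfl
  refine ⟨hsymm, ?_, ?_, ?_, ?_, ?_⟩
  · intro u v
    unfold cF c0
    split_ifs with huv
    · exact le_rfl
    · exact hG.ccnn _ hθ u v huv
  · intro k x hk
    have h1 : ∑ v, cF n β N (blk K b) h (k, x) v =
        vv (phys (edges n) β N) (th β N h (blk K b)) (k, x) :=
      netV_c0 (phys (edges n) β N) (th β N h (blk K b)) (k, x)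
    rw [h1]
    refine (hG.vle _ hθ _).trans ?_
    rw [th_ne (z := (k, x)) _ hk]
  · intro k l x hk hkl hl hx
    have hne : (k, x) ≠ (l, x) := fun e => (ne_of_lt hkl) (congrArg Prod.fst e)
    rw [hval _ _ hne]
    have hl' : (((l : ℕ) : ℝ)) ≤ ((k : ℕ) : ℝ) + 3 * W := by exact_mod_cast hl
    have h1 := l1 k l x (Fin.pos_iff_ne_zero.2 hk) hkl (by
      have h2 : (((l : ℕ) : ℝ) - ((k : ℕ) : ℝ)) * β / N ≤ 3 * (W * β / N) := by
        rw [show 3 * (W * β / (N : ℝ)) = (3 * W) * β / N by ring]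
        gcongr
        linarith
      rw [hWN] at h2
      have := hw.hi
      linarith)
    rw [hx] at h1
    refine le_trans ?_ h1
    have e : cl * (β * 1 / (2 * (N : ℝ))) ^ 2 = cl / 4 * (β / N) ^ 2 := by ring
    rw [e]
    gcongr
    linarith
  · intro k l x i hk hl hsep h3 h4 hx hxi
    have hxne : x ≠ x + Pi.single i 1 := by
      intro e
      have h1 : (Pi.single i 1 : Tor n) = 0 := by
        have h2 : x + 0 = x + Pi.single i 1 := by rw [add_zero]; exact e
        exact (add_left_cancel h2).symm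
      have h2 := congrFun h1 i
      rw [Pi.single_eq_same, Pi.zero_apply] at h2
      have : Fact (1 < n) := ⟨hn⟩
      exact one_ne_zero h2
    have hne : (k, x) ≠ (l, x + Pi.single i 1) := fun e => hxne (congrArg Prod.snd e)
    have hbd : ∀ k l : Fin (N + 1), (k : ℕ) + W ≤ l → (l : ℕ) ≤ k + 3 * W →
        1 / 4 ≤ ((l : ℝ) - (k : ℝ)) * β / N ∧ ((l : ℝ) - (k : ℝ)) * β / N ≤ 1 := by
      intro k l h5 h6
      have h5' : ((k : ℕ) : ℝ) + W ≤ ((l : ℕ) : ℝ) := by exact_mod_cast h5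
      have h6' : (((l : ℕ) : ℝ)) ≤ ((k : ℕ) : ℝ) + 3 * W := by exact_mod_cast h6
      constructor
      · have h7 : (W * β / N : ℝ) ≤ (((l : ℕ) : ℝ) - ((k : ℕ) : ℝ)) * β / N := by
          gcongr
          linarith
        rw [hWN] at h7
        exact hw.lo.trans h7
      · have h7 : (((l : ℕ) : ℝ) - ((k : ℕ) : ℝ)) * β / N ≤ 3 * (W * β / N) := by
          rw [show 3 * (W * β / (N : ℝ)) = (3 * W) * β / N by ring]
          gcongr
          linarith
        rw [hWN] at h7
        have := hw.hi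
        exact h7.trans (by linarith)
    have efin : ∀ c : ℝ, cl * (β * 1 / (2 * (N : ℝ))) * (β * 1 / (2 * N)) ≤ c →
        cl / 8 * (β / N) ^ 2 ≤ c := by
      intro c hc
      refine le_trans ?_ hc
      have e : cl * (β * 1 / (2 * (N : ℝ))) * (β * 1 / (2 * N)) = cl / 4 * (β / N) ^ 2 := by ring
      rw [e]
      gcongr
      linarith
    rcases hsep with h5 | h5
    · have hkl : k < l := by
        rw [Fin.lt_def]; omega
      rw [hval _ _ hne]
      obtain ⟨b1, b2⟩ := hbd k l h5 h3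
      have h6 := l2 k l x (x + Pi.single i 1) (Fin.pos_iff_ne_zero.2 hk) hkl b1 b2
        (Or.inl (mem_edges x i)) hxne
      rw [hx, hxi] at h6
      exact efin _ h6
    · have hkl : l < k := by
        rw [Fin.lt_def]; omega
      rw [hsymm, hval _ _ (Ne.symm hne)]
      obtain ⟨b1, b2⟩ := hbd l k h5 h4
      have h6 := l2 l k (x + Pi.single i 1) x (Fin.pos_iff_ne_zero.2 hl) hkl b1 b2
        (Or.inr (mem_edges x i)) (Ne.symm hxne)
      rw [hx, hxi] at h6
      exact efin _ h6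
  · intro k x hk hkW hxb hx
    have hne : ((0 : Fin (N + 1)), x) ≠ (k, x) := fun e => hk (congrArg Prod.fst e).symm
    rw [hval _ _ hne]
    have hkW' : ((k : ℕ) : ℝ) ≤ W := by exact_mod_cast hkW
    have h1 := l3 k x (Fin.pos_iff_ne_zero.2 hk) (by
      have h2 : ((k : ℕ) : ℝ) * β / N ≤ W * β / N := by gcongr
      rw [hWN] at h2
      have := hw.hi
      exact h2.trans (by linarith))
    rw [hx] at h1
    refine le_trans ?_ h1
    have h2 : K / b.card / 4 ≤ blk K b x := by
      unfold blk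
      rw [if_pos hxb]
      have h3 := half_le_tanh (y := K / (2 * b.card)) (by positivity)
        ((div_le_one (by positivity)).2 hKb)
      refine le_trans (le_of_eq ?_) h3
      field_simp
      ring
    have e : cl / 8 * (K / b.card) * (β / N) = cl * (K / b.card / 4) * (β * 1 / (2 * N)) := by
      ring
    rw [e]
    gcongr

end

end Vale.Agent.P361.LRO.Net
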