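import Vale.Agent.P361.LRO.Net.MLoc
import Vale.Agent.P361.LRO.SR.Good
import Vale.Agent.P361.LRO.Top.Iface

/-!
P361 LRO, block (6), master file, part 3: `KappaStmt` from the abstract block (6), LOC and the
Trotter limit of the magnetizations.
-/

namespace Vale.Agent.P361.LRO.Net

open Finset Filter Vale.Agent.P361.LRO

noncomputable section

/-- The abstract block (6) (`Ind.block6`). -/
def Block6 : Prop :=
  ∀ (c1 : ℝ), 0 < c1 → ∃ β0 c3 c4 : ℝ, 10 ≤ β0 ∧ 0 < c3 ∧ 0 < c4 ∧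
    ∀ (β : ℝ), β0 ≤ β → ∃ n0 : ℕ, ∀ (n N W m : ℕ) [NeZero n]
    (K h0 lam ε : ℝ) (o : Tor n) (a : ℕ) (h : Tor n → ℝ)
    (c : (Tor n → ℝ) → Ind.Nd n N → Ind.Nd n N → ℝ),
    n0 ≤ n → 0 < W → N = m * W → Ind.Win β m →
    (3 : ℝ) ^ a ≤ β → 1 ≤ K → K * β ≤ 27 ^ a →
    (n : ℝ) ^ (-(1 / 4 : ℝ)) ≤ h0 → h0 ≤ 1 → 1 / β ≤ lam → 0 ≤ ε → ε * Real.log β ≤ c4 →
    (∀ g, Fam n h0 lam g → Ind.Local n N W β K c1 (cube n o (3 ^ a)) g (c g)) →
    Ind.Low n N β h0 lam ε c →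
    Fam n h0 lam h →
    c3 * K ≤ _root_.P361.LRO.netK (c h) (fun z => if z ∈ hatb N (cube n o (3 ^ a)) then 1 else 0)

/-- The Trotter limit with tilt (`Mag/TrMag.lean`). -/
def TrMag : Prop :=
  ∀ {V : Type} [Fintype V] [DecidableEq V] (L : List (V × V)) (β K : ℝ) (b : Finset V), 0 < β →
    b.Nonempty → 0 ≤ K → ∀ η : ℝ, 0 < η →
    ∃ N0 : ℕ, ∀ N : ℕ, N0 ≤ N → ∀ h : V → ℝ, (∀ x, 0 ≤ h x ∧ h x ≤ 1) →
      (∀ x, rho L β h x ≤ η) → ∀ z : Fin (N + 1) × V, z.1 ≠ 0 →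
        1 - 4 * Real.exp (K * η) * η ≤ mag (phys L β N) (th β N h (blk K b)) z

theorem isLaw_phys {V : Type} [Fintype V] [DecidableEq V] (L : List (V × V)) {β : ℝ}
    (hβ : 0 ≤ β) {N : ℕ} (hN : β ≤ N) : IsLaw (phys L β N) := by
  refine ⟨gates L N (β / (2 * N)), base N, ?_, rfl⟩
  intro g hg
  unfold gates at hg
  rw [List.mem_flatMap] at hg
  obtain ⟨k, -, hk⟩ := hg
  rw [List.mem_map] at hk
  obtain ⟨e, -, rfl⟩ := hk
  refine ⟨by positivity, ?_⟩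
  rcases eq_or_lt_of_le hβ with h0 | h0
  · rw [← h0]; norm_num
  · have hNp : (0 : ℝ) < N := h0.trans_le hN
    show β / (2 * N) ≤ 1 / 2
    rw [div_le_iff₀ (by positivity)]
    linarith

theorem cube_card_ge {n : ℕ} [NeZero n] (x : Tor n) {w : ℕ} (hw : w ≤ n) :
    (cube n x w).card = w ^ 3 := by
  unfold cube
  rw [Finset.card_image_of_injective]
  · simp
  · intro y y' h
    have h1 := fun i => congrFun h i
    funext i
    have h2 := h1 i
    simp only [Pi.add_apply, add_right_inj] at h2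
    have h3 : ((y i : ℕ) : ZMod n) = ((y' i : ℕ) : ZMod n) := h2
    rw [ZMod.natCast_eq_natCast_iff'] at h3
    rw [Nat.mod_eq_of_lt ((y i).2.trans_le hw), Nat.mod_eq_of_lt ((y' i).2.trans_le hw)] at h3
    exact Fin.ext h3

theorem kappaStmt_of (h6 : Block6) (hloc : ∃ cl : ℝ, 0 < cl ∧ LocBound cl) (htr : TrMag) :
    KappaStmt := by
  obtain ⟨cl, hcl, hL⟩ := hloc
  obtain ⟨β1, c3, c4, hβ1, hc3, hc4, h6⟩ := h6 (cl / 8) (by positivity)
  refine ⟨c3, hc3, fun A hA => ?_⟩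
  -- large `β`
  have t1 : Tendsto (fun β : ℝ => β ^ (1 / 100 : ℝ)) atTop atTop := tendsto_rpow_atTop (by norm_num)
  have t2 : Tendsto (fun β : ℝ => β ^ (4 / 100 : ℝ)) atTop atTop := tendsto_rpow_atTop (by norm_num)
  have t3 : Tendsto (fun β : ℝ => β ^ (13 / 20 : ℝ)) atTop atTop := tendsto_rpow_atTop (by norm_num)
  have t4 : Tendsto (fun β : ℝ => Real.log β / β ^ (1 / 200 : ℝ)) atTop (nhds 0) :=
    (isLittleO_log_rpow_atTop (by norm_num : (0 : ℝ) < 1 / 200)).tendsto_div_nhds_zero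
  have t5 : Tendsto (fun β : ℝ => (2 * Real.exp (A / 2)) * (Real.log β / β ^ (1 / 200 : ℝ))) atTop
      (nhds 0) := by simpa using t4.const_mul (2 * Real.exp (A / 2))
  have t6 : Tendsto (fun β : ℝ => 4 * Real.exp A * β ^ (-(1 / 100) : ℝ)) atTop (nhds 0) := by
    have := (tendsto_rpow_neg_atTop (by norm_num : (0 : ℝ) < 1 / 100)).const_mul (4 * Real.exp A)
    simpa using this
  obtain ⟨β0, hβ0⟩ := Filter.eventually_atTop.1
    (((((((eventually_ge_atTop (max β1 1)).and (t1.eventually_ge_atTop (1 / A))).and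
      (t2.eventually_ge_atTop A)).and (t3.eventually_ge_atTop 3)).and
      (t5.eventually (ge_mem_nhds hc4))).and
      (t6.eventually (ge_mem_nhds (by norm_num : (0 : ℝ) < 1 / 2)))))
  refine ⟨β0, fun β hβ => ?_⟩
  obtain ⟨⟨⟨⟨⟨e1, e2⟩, e3⟩, e4⟩, e5⟩, e6⟩ := hβ0 β hβ
  have hβ1' : β1 ≤ β := (le_max_left _ _).trans e1
  have hβ10 : 10 ≤ β := hβ1.trans hβ1'
  have hβ1r : 1 ≤ β := by linarith
  have hβp : 0 < β := by linarith
  obtain ⟨n0, h6⟩ := h6 β hβ1'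
  obtain ⟨n1, hn1⟩ := exists_nat_ge β
  refine ⟨max (max n0 n1) 2, fun n _ hn hodd a ha1 ha2 h0 hh1 hh2 hBH h hh x => ?_⟩
  have hn0 : n0 ≤ n := (le_max_left _ _).trans ((le_max_left _ _).trans hn)
  have hn1' : n1 ≤ n := (le_max_right _ _).trans ((le_max_left _ _).trans hn)
  have hn2 : 2 ≤ n := (le_max_right _ _).trans hn
  have hnr : (0 : ℝ) < n := by exact_mod_cast (by omega : 0 < n)
  have hh0 : 0 < h0 := (Real.rpow_pos_of_pos hnr _).trans_le hh1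
  set K := A * β ^ (1 / 100 : ℝ) with hK
  have hK1 : 1 ≤ K := by
    have := mul_le_mul_of_nonneg_left e2 hA.le
    rwa [mul_one_div, div_self hA.ne'] at this
  have h3β : (3 : ℝ) ^ a ≤ β := by
    refine ha2.trans ?_
    have : β ^ (7 / 20 : ℝ) * β ^ (13 / 20 : ℝ) = β := by
      rw [← Real.rpow_add hβp]; norm_num
    calc 3 * β ^ (7 / 20 : ℝ) ≤ β ^ (13 / 20 : ℝ) * β ^ (7 / 20 : ℝ) := by gcongr
      _ = β := by rw [mul_comm]; exact this
  have h27 : K * β ≤ 27 ^ a := by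
    have h1 : (β ^ (7 / 20 : ℝ)) ^ 3 ≤ ((3 : ℝ) ^ a) ^ 3 := by gcongr
    have h2 : ((3 : ℝ) ^ a) ^ 3 = 27 ^ a := by
      rw [← pow_mul, mul_comm, pow_mul]; norm_num
    have h3 : (β ^ (7 / 20 : ℝ)) ^ 3 = β ^ (21 / 20 : ℝ) := by
      rw [← Real.rpow_natCast, ← Real.rpow_mul hβp.le]; norm_num
    have h4 : β ^ (21 / 20 : ℝ) = β ^ (4 / 100 : ℝ) * (β ^ (1 / 100 : ℝ) * β) := by
      have e : β ^ (1 / 100 : ℝ) * β = β ^ (101 / 100 : ℝ) := by
        conv_lhs => rw [← Real.rpow_one β, ← Real.rpow_mul hβp.le, ← Real.rpow_add hβp]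
        norm_num
      rw [e, ← Real.rpow_add hβp]; norm_num
    rw [h2, h3, h4] at h1
    refine le_trans ?_ h1
    rw [hK, mul_assoc]
    gcongr
  have hw_le : 3 ^ a ≤ n := by
    have h1 : ((3 ^ a : ℕ) : ℝ) ≤ n := by
      push_cast
      exact h3β.trans (hn1.trans (by exact_mod_cast hn1'))
    exact_mod_cast h1
  set b := cube n x (3 ^ a) with hb
  have hbcard : b.card = (3 ^ a) ^ 3 := cube_card_ge x hw_le
  have hbne : b.Nonempty := Finset.card_pos.1 (by rw [hbcard]; positivity)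
  have hKb : K ≤ 2 * b.card := by
    rw [hbcard]
    have h1 : (((3 ^ a) ^ 3 : ℕ) : ℝ) = 27 ^ a := by
      push_cast
      rw [← pow_mul, mul_comm, pow_mul]; norm_num
    rw [h1]
    have h2 : K * 1 ≤ K * β := by gcongr
    have h3 : (0 : ℝ) < 27 ^ a := by positivity
    linarith
  -- windows
  set m := ⌈3 * β⌉₊ with hm
  have hm1 : 3 * β ≤ m := Nat.le_ceil _
  have hm2 : (m : ℝ) ≤ 4 * β := by
    have := (Nat.ceil_lt_add_one (by positivity : (0 : ℝ) ≤ 3 * β)).le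
    linarith
  have hmp : (0 : ℝ) < m := by linarith
  have hwin : Ind.Win β m := by
    refine ⟨by exact_mod_cast hmp, ?_, ?_⟩
    · rw [le_div_iff₀ hmp]; linarith
    · rw [div_le_iff₀ hmp]; linarith
  -- the magnetizations
  set ε := 2 * Real.exp (A / 2) * β ^ (-(1 / 200) : ℝ) with hε
  have hε0 : 0 ≤ ε := by positivity
  have hηp : 0 < β ^ (-(1 / 100) : ℝ) := Real.rpow_pos_of_pos hβp _
  have hKη : K * β ^ (-(1 / 100) : ℝ) = A := by
    rw [hK, mul_assoc, ← Real.rpow_add hβp]; norm_num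
  have hεsq : ε ^ 2 = 4 * Real.exp A * β ^ (-(1 / 100) : ℝ) := by
    have h1 : Real.exp (A / 2) ^ 2 = Real.exp A := by
      rw [← Real.exp_nat_mul]; congr 1; push_cast; ring
    have h2 : (β ^ (-(1 / 200) : ℝ)) ^ 2 = β ^ (-(1 / 100) : ℝ) := by
      rw [← Real.rpow_natCast, ← Real.rpow_mul hβp.le]; norm_num
    rw [hε, mul_pow, mul_pow, h1, h2]; ring
  obtain ⟨N0, hN0⟩ := htr (edges n) β K b hβp hbne (by linarith) _ hηp
  have hεlog : ε * Real.log β ≤ c4 := by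
    refine le_trans (le_of_eq ?_) e5
    rw [hε, Real.rpow_neg hβp.le]
    ring
  have hlam : 0 ≤ β ^ (-(9 / 10) : ℝ) := (Real.rpow_pos_of_pos hβp _).le
  have hlam1 : 1 / β ≤ β ^ (-(9 / 10) : ℝ) := by
    rw [one_div, ← Real.rpow_neg_one]
    exact Real.rpow_le_rpow_of_exponent_le hβ1r (by norm_num)
  rw [Filter.frequently_atTop]
  intro N1
  set W := max (max N0 N1) 8 with hW
  have hW8 : 8 ≤ W := le_max_right _ _
  have hWp : 0 < W := by omega
  have hm3 : 1 ≤ m := by exact_mod_cast hwin.pos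
  have hWN : W ≤ m * W := Nat.le_mul_of_pos_left W hm3
  have hN1 : N1 ≤ m * W := ((le_max_right _ _).trans (le_max_left _ _)).trans hWN
  have hN0' : N0 ≤ m * W := ((le_max_left _ _).trans (le_max_left _ _)).trans hWN
  refine ⟨m * W, hN1, ?_⟩
  have hWr : (8 : ℝ) ≤ W := by exact_mod_cast hW8
  have hN8 : 8 * β ≤ ((m * W : ℕ) : ℝ) := by
    push_cast
    nlinarith
  have hNβ : β ≤ ((m * W : ℕ) : ℝ) := by linarith
  have hG : Good (phys (edges n) β (m * W)) := good_of_isLaw (isLaw_phys _ hβp.le hNβ)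
  have hT : ∀ y, 0 ≤ blk K b y ∧ blk K b y ≤ 1 := by
    intro y
    unfold blk
    split_ifs
    · refine ⟨?_, (Real.tanh_lt_one _).le⟩
      rw [Real.tanh_eq_sinh_div_cosh]
      exact div_nonneg (Real.sinh_nonneg_iff.2 (by positivity)) (Real.cosh_pos _).le
    · norm_num
  have hpos : ∀ g, Fam n h0 (β ^ (-(9 / 10) : ℝ)) g → ∀ y, 0 ≤ g y ∧ g y ≤ 1 := fun g hg y =>
    ⟨hh0.le.trans (hg.ge y), hg.le_one y⟩
  have hM : MagHyp n β (m * W) (blk K b) h0 (β ^ (-(9 / 10) : ℝ)) ε := by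
    intro g hg z hz
    have h1 := hN0 (m * W) hN0' g (hpos g hg) (hBH g hg) z hz
    rw [hKη] at h1
    rw [hεsq]
    exact h1
  have key := h6 n (m * W) W m K h0 (β ^ (-(9 / 10) : ℝ)) ε x a h (cF n β (m * W) (blk K b)) hn0
    hWp rfl hwin h3β hK1 h27 hh1 hh2 hlam1 hε0 hεlog
    (fun g hg => local_cF hn2 hcl hL hβ1r hN8 rfl hWp hwin hG (by linarith) hbne hKb (hpos g hg))
    (low_cF hβp hNβ hG (fun y => (hT y).1) (fun y => (hT y).2) hh0 hlam hε0
      (by rw [hεsq]; exact e6) hM) hh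
  refine key.trans (le_of_eq ?_)
  unfold cF kap
  rw [netK_c0]

end

end Vale.Agent.P361.LRO.Net
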