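import Vale.Agent.P361.LRO.Net.LowGlue

/-!
P361 LRO, stage 3: the structure `Low` for an arbitrary good law, and for the scaled fields
`h = g / β` (slice parameters `g / (2N)`).
-/

namespace Vale.Agent.P361.LRO.Net

open Finset Filter Topology
open Vale.Agent.P361.LRO Vale.Agent.P361.LRO.Ind

set_option linter.unusedSectionVars false

variable {n : ℕ} [NeZero n]

/-- **`Low` for any good law `μ` and slice parameters `β g / (2N)`** (`β` is only the scale of the
fields here, not the inverse temperature). -/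
theorem low_of_gen {β : ℝ} (hβ : 0 < β) {N : ℕ} (hN : β ≤ N) {K : ℝ} (hK : 0 ≤ K)
    (b : Finset (Tor n)) {h0 lam ε : ℝ} (hh0 : 0 < h0) (hε : 0 ≤ ε) (hε1 : ε ^ 2 ≤ 1 / 2)
    {μ : Equiv.Perm (Nd n N) → ℝ} (hG : Good μ)
    (hmag : ∀ h, Fam n h0 lam h → ∀ z : Nd n N, z.1 ≠ 0 →
      1 - ε ^ 2 ≤ mag μ (th β N h (blk K b)) z) :
    Low n N β h0 lam ε (fun h => c0 μ (th β N h (blk K b))) := by
  have hNpos : (0 : ℝ) < N := lt_of_lt_of_le hβ hN
  have hfpos : ∀ {h : Tor n → ℝ}, Fam n h0 lam h → ∀ x, 0 < h x :=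
    fun hf x => hh0.trans_le (hf.1 x).1
  have hmem : ∀ {h : Tor n → ℝ}, Fam n h0 lam h → ∀ z : Nd n N,
      0 ≤ th β N h (blk K b) z ∧ th β N h (blk K b) z ≤ 1 := fun hf z =>
    th_mem hβ hN hK b (fun x => (hfpos hf x).le) (fun x => (hf.1 x).2) z
  have hmono : ∀ {h h' : Tor n → ℝ}, (∀ x, h' x ≤ h x) → ∀ z : Nd n N,
      th β N h' (blk K b) z ≤ th β N h (blk K b) z := by
    intro h h' hle z
    unfold th
    split_ifs
    · exact le_rfl
    · have := hle z.2
      gcongr
  have hlt : ∀ {h h' : Tor n → ℝ} (z : Nd n N),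
      th β N h' (blk K b) z < th β N h (blk K b) z → z.1 ≠ 0 := by
    intro h h' z hz h0
    unfold th at hz
    simp [h0] at hz
  have hfix : ∀ {h h' : Tor n → ℝ} (z : Nd n N), (z.1 ≠ 0 → h' z.2 = h z.2) →
      th β N h' (blk K b) z = th β N h (blk K b) z := by
    intro h h' z hz
    unfold th
    split_ifs with h1
    · rfl
    · rw [hz h1]
  have hpos : ∀ {h h' : Tor n → ℝ}, Fam n h0 lam h' → ∀ z : Nd n N,
      th β N h' (blk K b) z < th β N h (blk K b) z → 0 < th β N h' (blk K b) z := by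
    intro h h' hf z hz
    have h1 := hlt z hz
    unfold th
    rw [if_neg h1]
    have := hfpos hf z.2
    positivity
  have hm : ∀ {h h' : Tor n → ℝ}, Fam n h0 lam h → Fam n h0 lam h' → ∀ s : ℝ, 0 ≤ s →
      ∀ z : Nd n N, th β N h' (blk K b) z < th β N h (blk K b) z →
      1 - ε ^ 2 ≤ mag μ
        (path (th β N h (blk K b)) (th β N h' (blk K b)) s) z := by
    intro h h' hf hf' s hs z hz
    rw [path_th hβ hN hK b h h' hs]
    exact hmag _ (Fam.lower hh0.le hf hf' hs) z (hlt z hz)
  refine ⟨?_, ?_⟩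
  · intro h h' hf hf' hle E G hEG hfixEG S hS hsum A hA hLB
    simp only [LBn_iff] at hLB ⊢
    have hE : ∀ z ∈ E, th β N h' (blk K b) z = th β N h (blk K b) z := fun z hz =>
      hfix z (hfixEG z (Finset.mem_union_left _ hz))
    have hG' : ∀ z ∈ G, th β N h' (blk K b) z = th β N h (blk K b) z := fun z hz =>
      hfix z (hfixEG z (Finset.mem_union_right _ hz))
    have key := LB_lower hG hε (fun z => (hmem hf' z).1) (hmono hle) (fun z => (hmem hf z).2)
      hE hG' hEG (hpos hf') (hm hf hf') (Real.log_nonneg hS)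
      (B := β * S / 2) (by
        rw [sum_lowered hβ hN K b hle]
        have := mul_le_mul_of_nonneg_left hsum (by positivity : (0 : ℝ) ≤ β / 2)
        linarith) hLB
    intro a haE haG
    refine le_trans ?_ (key a haE haG)
    have hSpos : 0 < β * S := by linarith
    have e1 : Real.exp (-(4 * ε * Real.log (β * S))) = (β * S) ^ (-(4 * ε)) := by
      rw [Real.rpow_def_of_pos hSpos]
      congr 1
      ring
    rw [e1, Real.exp_neg, Real.exp_log hSpos]
    have e2 : 2 * ε * (β * S / 2) * (β * S)⁻¹ = ε := by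
      have h5 : (β * S) * (β * S)⁻¹ = 1 := mul_inv_cancel₀ hSpos.ne'
      linear_combination ε * h5
    rw [e2]
    linarith
  · intro _ hh1 h' hf' E q hfixE hqE hq0 hqnn hq1 R hR hRB
    simp only [RBn_iff] at hRB ⊢
    have hlam : 1 ≤ Real.exp lam := by
      have h1 := hf'.2 0 0
      have h2 := hfpos hf' 0
      have h3 : h' 0 ≤ Real.exp lam * (Real.exp lam * h' 0) :=
        h1.1.trans (mul_le_mul_of_nonneg_left h1.2 (Real.exp_pos _).le)
      by_contra hcon
      have h4 : Real.exp lam < 1 := not_le.mp hcon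
      have h5 := Real.exp_pos lam
      nlinarith [mul_pos h5 h2, mul_pos (sub_pos.mpr h4) h2,
        mul_pos (mul_pos h5 h2) (sub_pos.mpr h4)]
    have hf : Fam n h0 lam fun _ => (1 : ℝ) :=
      ⟨fun x => ⟨hh1, le_rfl⟩, fun x i => ⟨by linarith, by linarith⟩⟩
    have hle : ∀ x, h' x ≤ (fun _ : Tor n => (1 : ℝ)) x := fun x => (hf'.1 x).2
    have hE : ∀ z ∈ E, th β N h' (blk K b) z = th β N (fun _ => 1) (blk K b) z := fun z hz =>
      hfix z (hfixE z hz)
    have hlog : 0 ≤ Real.log (1 / h0) := Real.log_nonneg (by rw [le_div_iff₀ hh0]; linarith)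
    have key := ode_RB hG (fun z => (hmem hf' z).1) (hmono hle) (fun z => (hmem hf z).2)
      hE hq1 (τ := 2 * ε) (by positivity)
      (fun s hs z hz => by
        have h1 := hm hf hf' s hs z hz
        refine ⟨sqrt_mag_le hε h1, ?_⟩
        have h2 : 1 / 2 ≤ 1 - ε ^ 2 := by linarith
        exact h2.trans h1)
      hR hRB hlog (fun z => by
        rw [Real.exp_log (by positivity)]
        unfold th
        by_cases hz : z.1 = 0
        · simp only [hz, if_true]
          have h1 := (blk_mem hK b z.2).1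
          have h2 : 1 ≤ 1 / h0 := by rw [le_div_iff₀ hh0]; linarith
          nlinarith
        · simp only [hz, if_false]
          have h2 := (hf'.1 z.2).1
          have h3 : (1 : ℝ) ≤ 1 / h0 * h' z.2 := by
            rw [one_div, inv_mul_eq_div, le_div_iff₀ hh0]
            linarith
          have hc : 0 ≤ β / (2 * N) := by positivity
          calc β * 1 / (2 * N) = β / (2 * N) * 1 := by ring
            _ ≤ β / (2 * N) * (1 / h0 * h' z.2) := mul_le_mul_of_nonneg_left h3 hc
            _ = 1 / h0 * (β * h' z.2 / (2 * N)) := by ring)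
    intro a ha
    refine (key a ha).trans ?_
    have hKK : 0 ≤ KK μ (th β N h' (blk K b)) a := by
      rw [← netK_c0]
      refine P361.LRO.netK_nonneg (fun x y => ?_) a
      unfold c0
      split_ifs with hxy
      · exact le_rfl
      · exact hG.ccnn _ (hmem hf') x y hxy
    refine mul_le_mul_of_nonneg_right ?_ hKK
    have e1 : Real.exp (2 * (2 * ε) * Real.log (1 / h0)) = h0 ^ (-(4 * ε)) := by
      rw [Real.rpow_def_of_pos hh0, one_div, Real.log_inv]
      congr 1
      ring
    rw [e1]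
    refine mul_le_mul_of_nonneg_left ?_ (Real.rpow_nonneg hh0.le _)
    refine add_le_add le_rfl ?_
    rw [Real.exp_log (by positivity)]
    have h5 : ∑ z ∈ univ.filter (fun z : Nd n N =>
        th β N h' (blk K b) z < th β N (fun _ => 1) (blk K b) z),
        q z ^ 2 / th β N (fun _ => 1) (blk K b) z ≤ 2 * N / β * ∑ z, q z ^ 2 := by
      rw [Finset.mul_sum, Finset.sum_filter]
      refine Finset.sum_le_sum fun z _ => ?_
      split_ifs with h1
      · have hz := hlt z h1
        unfold th
        rw [if_neg hz]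
        apply le_of_eq
        field_simp
      · positivity
    have h6 : 0 ≤ ∑ z ∈ univ.filter (fun z : Nd n N =>
        th β N h' (blk K b) z < th β N (fun _ => 1) (blk K b) z),
        q z ^ 2 / th β N (fun _ => 1) (blk K b) z :=
      Finset.sum_nonneg fun z _ => div_nonneg (sq_nonneg _) (hmem hf z).1
    have h7 : 1 / h0 - 1 ≤ 1 / h0 := by linarith
    have h8 : 0 ≤ 1 / h0 := by positivity
    calc 4 * (1 / h0 - 1) * ∑ z ∈ univ.filter (fun z : Nd n N =>
        th β N h' (blk K b) z < th β N (fun _ => 1) (blk K b) z),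
        q z ^ 2 / th β N (fun _ => 1) (blk K b) z
        ≤ 4 * (1 / h0) * (2 * N / β * ∑ z, q z ^ 2) := by
          apply mul_le_mul _ h5 h6 (by positivity)
          linarith
      _ = 8 * N / (β * h0) * ∑ z, q z ^ 2 := by
          field_simp
          ring


/-- The physical network in the scaled field `g` (physical field `g / β`). -/
noncomputable def cphys3 (n : ℕ) [NeZero n] (β : ℝ) (N : ℕ) (K : ℝ) (b : Finset (Tor n))
    (g : Tor n → ℝ) : Nd n N → Nd n N → ℝ :=
  c0 (phys (edges n) β N) (th 1 N g (blk K b))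

/-- The slice parameters of the physical field `g / β`. -/
theorem th_scaled {V : Type} {β : ℝ} (hβ : 0 < β) (N : ℕ) (g T : V → ℝ) :
    th β N (fun x => g x / β) T = th 1 N g T := by
  funext z
  unfold th
  split_ifs
  · rfl
  · congr 1
    field_simp

theorem cphys3_eq {β : ℝ} (hβ : 0 < β) (N : ℕ) (K : ℝ) (b : Finset (Tor n)) (g : Tor n → ℝ) :
    cphys3 n β N K b g = cphys n β N K b (fun x => g x / β) := by
  unfold cphys3 cphys
  rw [th_scaled hβ]

/-- `κ_b` in the physical field `g / β` is the energy of the indicator of the extra slice on `b`. -/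
theorem kap_scaled {β : ℝ} (hβ : 0 < β) (N : ℕ) (K : ℝ) (b : Finset (Tor n)) (g : Tor n → ℝ) :
    kap (edges n) β N (fun x => g x / β) K b =
      P361.LRO.netK (cphys3 n β N K b g) fun z => if z ∈ hatb N b then 1 else 0 := by
  unfold kap cphys3
  rw [netK_c0, th_scaled hβ]

/-- **`Low` for the scaled fields** (used with `β := 1` in `Low`). -/
theorem low_scaled {β : ℝ} {N : ℕ} (hN : 1 ≤ N) {K : ℝ} (hK : 0 ≤ K)
    (b : Finset (Tor n)) {h0 lam ε : ℝ} (hh0 : 0 < h0) (hε : 0 ≤ ε) (hε1 : ε ^ 2 ≤ 1 / 2)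
    (hG : Good (phys (edges n) β N))
    (hmag : ∀ g, Fam n h0 lam g → ∀ z : Nd n N, z.1 ≠ 0 →
      1 - ε ^ 2 ≤ mag (phys (edges n) β N) (th 1 N g (blk K b)) z) :
    Low n N 1 h0 lam ε (cphys3 n β N K b) :=
  low_of_gen one_pos (by exact_mod_cast hN) hK b hh0 hε hε1 hG hmag

end Vale.Agent.P361.LRO.Net
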