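import Vale.Agent.P361.LRO.Net.Lower
import Vale.Agent.P361.LRO.NetODEDualG

/-!
P361 LRO, block (3): the dual lowering with the contact term `4 q² / θ0` (time dependent bound).
-/

namespace Vale.Agent.P361.LRO.Net

open Finset

variable {X : Type} [Fintype X] [DecidableEq X]

/-- **Lowering, dual form**, contact term with the lowered weights. -/
theorem ode_RBG {μ : Equiv.Perm X → ℝ} (hμ : Good μ) {θ0 θ1 : X → ℝ}
    (h0 : ∀ x, 0 ≤ θ0 x) (h01 : ∀ x, θ0 x ≤ θ1 x) (h1 : ∀ x, θ1 x ≤ 1)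
    {E : Finset X}
    (hE : ∀ x ∈ E, θ0 x = θ1 x) {q : X → ℝ} (hq1 : ∑ x, q x = 1) {τ : ℝ} (hτ : 0 ≤ τ)
    (hmag : ∀ s : ℝ, 0 ≤ s → ∀ z, θ0 z < θ1 z →
      Real.sqrt (1 - mag μ (fun x => max (θ0 x) (Real.exp (-s) * θ1 x)) z ^ 2) ≤ τ ∧
        1 / 2 ≤ mag μ (fun x => max (θ0 x) (Real.exp (-s) * θ1 x)) z)
    {R : ℝ} (hR0 : 0 ≤ R) (hR : RB μ θ1 E q R) {S : ℝ} (hS : 0 ≤ S)
    (hS1 : ∀ x, θ1 x ≤ Real.exp S * θ0 x) :
    RB μ θ0 E q (Real.exp (2 * τ * S) *
      (R + 4 * ∑ z ∈ univ.filter (fun z => θ0 z < θ1 z), q z ^ 2 / θ0 z)) := by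
  have H := netFlow hμ (θ := θ1) (θ' := θ0) (E := E) (G := ∅) (ε := τ / 2) (by positivity)
    h0 h01 h1 hE (by simp) (by simp)
    (fun s hs z hz => by
      have := (hmag s hs z hz).1
      rw [show 2 * (τ / 2) = τ by ring]
      exact this)
  have hθ1 : ∀ x, 0 ≤ θ1 x := fun x => (h0 x).trans (h01 x)
  have hend : path θ1 θ0 S = θ0 := by
    funext x
    refine max_eq_left ?_
    have h3 := mul_le_mul_of_nonneg_left (hS1 x) (Real.exp_pos (-S)).le
    rw [← mul_assoc, ← Real.exp_add, neg_add_cancel, Real.exp_zero, one_mul] at h3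
    exact h3
  have hpos0 : ∀ z, θ0 z < θ1 z → 0 < θ0 z := by
    intro z hz
    rcases (h0 z).lt_or_eq with h | h
    · exact h
    · exfalso
      have h2 := hS1 z
      rw [← h, mul_zero] at h2
      have h3 := h0 z
      linarith
  have hvz : ∀ s, 0 ≤ s → ∀ z, θ0 z < Real.exp (-s) * θ1 z →
      θ0 z < θ1 z ∧ 0 < θ1 z ∧ Real.exp (-s) * θ1 z / 4 ≤ vv μ (path θ1 θ0 s) z := by
    intro s hs z hz
    have hexp : Real.exp (-s) ≤ 1 := Real.exp_le_one_iff.mpr (by linarith)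
    have hzl : θ0 z < θ1 z := by
      refine lt_of_lt_of_le hz ?_
      nlinarith [hθ1 z]
    have h4 : path θ1 θ0 s z = Real.exp (-s) * θ1 z := by simp [path, max_eq_right hz.le]
    refine ⟨hzl, (h0 z).trans_lt hzl, ?_⟩
    have h5 := vv_ge hμ (θ := path θ1 θ0 s)
      (fun x => ⟨path_nonneg h0 s x, (path_le h0 h01 hs x).trans (h1 x)⟩) z (hmag s hs z hzl).2
    rwa [h4] at h5
  set A : Finset X := univ.filter (fun z => θ0 z < θ1 z) with hA
  set g : ℝ → ℝ := fun s => ∑ z ∈ A, P361.LRO.gNode (4 * q z ^ 2) (θ1 z) (θ0 z) s with hg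
  set g' : ℝ → ℝ := fun s => ∑ z ∈ A, P361.LRO.gNode' (4 * q z ^ 2) (θ1 z) (θ0 z) s with hg'
  have hAm : ∀ z ∈ A, 0 < θ0 z ∧ θ0 z ≤ θ1 z ∧ 0 < θ1 z := by
    intro z hz
    rw [hA, Finset.mem_filter] at hz
    exact ⟨hpos0 z hz.2, hz.2.le, (hpos0 z hz.2).trans hz.2⟩
  have hg0 : g 0 = 0 := by
    rw [hg]
    exact Finset.sum_eq_zero fun z hz => P361.LRO.gNode_zero (hAm z hz).1 (hAm z hz).2.1
  have hgnn : ∀ s, 0 ≤ s → 0 ≤ g s := fun s hs =>
    Finset.sum_nonneg fun z hz =>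
      P361.LRO.gNode_nonneg (by positivity) (hAm z hz).1 (hAm z hz).2.1 hs
  have hg'nn : ∀ s, 0 ≤ s → 0 ≤ g' s := fun s _ =>
    Finset.sum_nonneg fun z hz => P361.LRO.gNode'_nonneg (by positivity) (hAm z hz).2.2 s
  have hgc : ContinuousOn g (Set.Ici 0) :=
    (continuous_finsetSum _ fun z _ => P361.LRO.continuous_gNode _ _ _).continuousOn
  have hgd : ∀ s, 0 ≤ s → HasDerivWithinAt g (g' s) (Set.Ici s) s := fun s _ =>
    HasDerivWithinAt.fun_sum fun z hz => P361.LRO.gNode_deriv (hAm z hz).2.2 s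
  have hq : ∀ s, 0 ≤ s → s ≤ S → ∑ z, rate θ1 θ0 s z *
      (q z ^ 2 / P361.LRO.netV (c0 μ (path θ1 θ0 s)) z) ≤ g' s := by
    intro s hs _
    rw [hg', hA]
    simp only [Finset.sum_filter]
    refine Finset.sum_le_sum fun z _ => ?_
    rw [netV_c0]
    by_cases hz : θ0 z < Real.exp (-s) * θ1 z
    · obtain ⟨hzl, hpz, hv⟩ := hvz s hs z hz
      simp only [rate, hz, hzl, if_true, one_mul]
      have hpos1 : 0 < Real.exp (-s) * θ1 z / 4 := by positivity
      have hlt : Real.exp s / θ1 z < 1 / θ0 z := by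
        rw [div_lt_div_iff₀ hpz (hpos0 z hzl)]
        have h3 := mul_lt_mul_of_pos_left hz (Real.exp_pos s)
        rw [← mul_assoc, ← Real.exp_add, add_neg_cancel, Real.exp_zero, one_mul] at h3
        linarith
      unfold P361.LRO.gNode'
      rw [if_pos hlt]
      calc q z ^ 2 / vv μ (path θ1 θ0 s) z ≤ q z ^ 2 / (Real.exp (-s) * θ1 z / 4) :=
            div_le_div_of_nonneg_left (sq_nonneg _) hpos1 hv
        _ = 4 * q z ^ 2 * (Real.exp s / θ1 z) := by
            rw [Real.exp_neg]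
            have := Real.exp_pos s
            field_simp
    · simp only [rate, hz, if_false, zero_mul]
      split_ifs with hzl
      · exact P361.LRO.gNode'_nonneg (by positivity) ((hpos0 z hzl).trans hzl) s
      · exact le_rfl
  have hW : ∀ s, 0 ≤ s → s ≤ S → ∑ z, rate θ1 θ0 s z *
      (P361.LRO.netV (c0 μ (path θ1 θ0 s)) z)⁻¹ ≤
      ∑ z ∈ univ.filter (fun z => θ0 z < θ1 z), 4 * Real.exp S / θ1 z := by
    intro s hs hsS
    rw [Finset.sum_filter]
    refine Finset.sum_le_sum fun z _ => ?_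
    rw [netV_c0]
    by_cases hz : θ0 z < Real.exp (-s) * θ1 z
    · obtain ⟨hzl, hpz, hv⟩ := hvz s hs z hz
      simp only [rate, hz, hzl, if_true, one_mul]
      have hpos1 : 0 < Real.exp (-s) * θ1 z / 4 := by positivity
      calc (vv μ (path θ1 θ0 s) z)⁻¹ ≤ (Real.exp (-s) * θ1 z / 4)⁻¹ :=
            inv_anti₀ hpos1 hv
        _ = 4 * Real.exp s / θ1 z := by
            rw [Real.exp_neg]
            have := Real.exp_pos s
            field_simp
        _ ≤ 4 * Real.exp S / θ1 z := by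
            have := Real.exp_le_exp.mpr hsS
            gcongr
    · simp only [rate, hz, if_false, zero_mul]
      split_ifs
      · have := hθ1 z
        positivity
      · exact le_rfl
  have hgS : g S ≤ 4 * ∑ z ∈ A, q z ^ 2 / θ0 z := by
    rw [hg, Finset.mul_sum]
    refine Finset.sum_le_sum fun z hz => ?_
    refine (P361.LRO.gNode_le (by positivity) (hAm z hz).2.2).trans (le_of_eq ?_)
    ring
  intro a ha
  have key := H.RB_lowerG q hq1 (T := S) (R := R) hS hg0 hgnn hg'nn hgc hgd hR0 hq hW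
    (fun a ha => by
      rw [path_zero h01, netK_c0]
      exact hR a (fun x hx => ha x (by exact_mod_cast hx)))
    (a := a) (fun x hx => ha x (by exact_mod_cast hx))
  rw [hend, netK_c0] at key
  refine key.trans ?_
  rw [show 4 * (τ / 2) * S = 2 * τ * S by ring]
  have hKK : 0 ≤ KK μ θ0 a := by
    rw [← netK_c0]
    have hnn := H.nn S hS
    rw [hend] at hnn
    exact P361.LRO.netK_nonneg hnn a
  refine mul_le_mul_of_nonneg_right ?_ hKK
  exact mul_le_mul_of_nonneg_left (by linarith) (Real.exp_nonneg _)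

end Vale.Agent.P361.LRO.Net
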