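import Vale.Agent.P361.LRO.Ind.Defs
import Vale.Agent.P361.LRO.Net.Lower
import Vale.Agent.P361.LRO.Fam

/-!
P361 LRO, block (6), master file, part 1: the physical conductances satisfy `Ind.Low`.
-/

namespace Vale.Agent.P361.LRO.Net

open Finset Filter Vale.Agent.P361.LRO

noncomputable section

/-- The physical conductances (off-diagonal) of the profile `h`. -/
def cF (n : ℕ) [NeZero n] (β : ℝ) (N : ℕ) (T : Tor n → ℝ) (h : Tor n → ℝ) :
    Ind.Nd n N → Ind.Nd n N → ℝ :=
  c0 (phys (edges n) β N) (th β N h T)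

theorem LBn_cF {n : ℕ} [NeZero n] {β : ℝ} {N : ℕ} {T h : Tor n → ℝ}
    {E G : Finset (Ind.Nd n N)} {A : ℝ} :
    Ind.LBn (cF n β N T h) E G A ↔ LB (phys (edges n) β N) (th β N h T) E G A := by
  unfold Ind.LBn LB cF
  simp only [netK_c0]

theorem RBn_cF {n : ℕ} [NeZero n] {β : ℝ} {N : ℕ} {T h : Tor n → ℝ}
    {E : Finset (Ind.Nd n N)} {q : Ind.Nd n N → ℝ} {R : ℝ} :
    Ind.RBn (cF n β N T h) E q R ↔ RB (phys (edges n) β N) (th β N h T) E q R := by
  unfold Ind.RBn RB cF
  simp only [netK_c0]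

section

variable {V : Type} {β : ℝ} {N : ℕ} {T : V → ℝ}

theorem th_zero (h : V → ℝ) (x : V) : th β N h T (0, x) = T x := by
  unfold th; rw [if_pos rfl]

theorem th_ne (h : V → ℝ) {z : Fin (N + 1) × V} (hz : z.1 ≠ 0) :
    th β N h T z = β * h z.2 / (2 * N) := by
  unfold th; rw [if_neg hz]

theorem th_nonneg (hβ : 0 ≤ β) {h : V → ℝ} (hh : ∀ x, 0 ≤ h x) (hT : ∀ x, 0 ≤ T x)
    (z : Fin (N + 1) × V) : 0 ≤ th β N h T z := by
  unfold th
  split_ifs
  · exact hT _
  · exact div_nonneg (mul_nonneg hβ (hh _)) (by positivity)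

theorem th_le_one (hβ : 0 ≤ β) (hN : β ≤ N) {h : V → ℝ} (hh : ∀ x, h x ≤ 1)
    (hT : ∀ x, T x ≤ 1) (z : Fin (N + 1) × V) : th β N h T z ≤ 1 := by
  unfold th
  split_ifs
  · exact hT _
  · rcases eq_or_lt_of_le hβ with h0 | h0
    · rw [← h0]; simp
    · have hNp : (0 : ℝ) < N := h0.trans_le hN
      rw [div_le_one (by positivity)]
      have := mul_le_mul_of_nonneg_left (hh z.2) hβ
      linarith

theorem th_mono (hβ : 0 ≤ β) {h h' : V → ℝ} (hh : ∀ x, h' x ≤ h x)
    (z : Fin (N + 1) × V) : th β N h' T z ≤ th β N h T z := by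
  unfold th
  split_ifs
  · exact le_rfl
  · exact div_le_div_of_nonneg_right (mul_le_mul_of_nonneg_left (hh _) hβ) (by positivity)

/-- The path of slice parameters is the path of profiles. -/
theorem path_thM (hβ : 0 ≤ β) (hT : ∀ x, 0 ≤ T x) (h h' : V → ℝ) {s : ℝ} (hs : 0 ≤ s) :
    path (th β N h T) (th β N h' T) s =
      th β N (fun x => max (h' x) (Real.exp (-s) * h x)) T := by
  funext z
  unfold path
  by_cases hz : z.1 = 0
  · unfold th
    have h1 : Real.exp (-s) ≤ 1 := Real.exp_le_one_iff.mpr (by linarith)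
    have h2 : Real.exp (-s) * T z.2 ≤ T z.2 := mul_le_of_le_one_left (hT _) h1
    rw [if_pos hz, if_pos hz, if_pos hz]
    exact max_eq_left h2
  · rw [th_ne h hz, th_ne h' hz, th_ne _ hz]
    have hc : 0 ≤ β / (2 * (N : ℝ)) := by positivity
    have e : ∀ y : ℝ, β * y / (2 * (N : ℝ)) = β / (2 * N) * y := fun y => by ring
    rw [e, e, e, mul_max_of_nonneg _ _ hc]
    congr 1
    ring

end

theorem sum_layers {n N : ℕ} [NeZero n] (f : Fin (N + 1) × Tor n → ℝ) (g : Tor n → ℝ)
    (h0 : ∀ x, f (0, x) = 0) (h1 : ∀ k x, k ≠ 0 → f (k, x) = g x) :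
    ∑ z, f z = N * ∑ x, g x := by
  rw [Fintype.sum_prod_type, Fin.sum_univ_succ]
  have e1 : ∑ x, f (0, x) = 0 := Finset.sum_eq_zero fun x _ => h0 x
  have e2 : ∀ i : Fin N, ∑ x, f (i.succ, x) = ∑ x, g x := fun i =>
    Finset.sum_congr rfl fun x _ => h1 _ _ (Fin.succ_ne_zero i)
  rw [e1, zero_add, Finset.sum_congr rfl fun i _ => e2 i, Finset.sum_const, Finset.card_univ,
    Fintype.card_fin, nsmul_eq_mul]

/-- Hypothesis from the blocks (2), (5): magnetizations close to one on the whole family. -/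
def MagHyp (n : ℕ) [NeZero n] (β : ℝ) (N : ℕ) (T : Tor n → ℝ) (h0 lam ε : ℝ) : Prop :=
  ∀ h, Fam n h0 lam h → ∀ z : Fin (N + 1) × Tor n, z.1 ≠ 0 →
    1 - ε ^ 2 ≤ mag (phys (edges n) β N) (th β N h T) z

theorem fam_path {n : ℕ} [NeZero n] {h0 lam : ℝ} {h h' : Tor n → ℝ} (hp : 0 ≤ h0)
    (hh : Fam n h0 lam h) (hh' : Fam n h0 lam h') {s : ℝ} (hs : 0 ≤ s) :
    Fam n h0 lam fun x => max (h' x) (Real.exp (-s) * h x) :=
  hh'.max_smul hh.lip hh.le_one (fun x => hp.trans (hh.ge x)) (Real.exp_pos _).le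
    (Real.exp_le_one_iff.mpr (by linarith))

theorem low_cF {n N : ℕ} [NeZero n] {β h0 lam ε : ℝ} {T : Tor n → ℝ} (hβ : 0 < β) (hN : β ≤ N)
    (hG : Good (phys (edges n) β N)) (hT0 : ∀ x, 0 ≤ T x) (hT1 : ∀ x, T x ≤ 1)
    (hh0 : 0 < h0) (hlam : 0 ≤ lam) (hε : 0 ≤ ε) (hε1 : ε ^ 2 ≤ 1 / 2)
    (hM : MagHyp n β N T h0 lam ε) : Ind.Low n N β h0 lam ε (cF n β N T) where
  prim := by
    intro h h' hh hh' hle E G hEG hEq S hS hSum A hA hLB
    rw [LBn_cF] at hLB ⊢
    have hp : ∀ g, Fam n h0 lam g → ∀ x, 0 ≤ g x := fun g hg x => hh0.le.trans (hg.ge x)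
    have hbS : (0 : ℝ) < β * S := by linarith
    have hEq' : ∀ z ∈ E ∪ G, th β N h' T z = th β N h T z := by
      intro z hz
      by_cases hz0 : z.1 = 0
      · unfold th; rw [if_pos hz0, if_pos hz0]
      · rw [th_ne _ hz0, th_ne _ hz0, hEq z hz hz0]
    have key := LB_lower hG (θ := th β N h T) (θ' := th β N h' T) (E := E) (G := G) (ε := ε)
      (S := Real.log (β * S)) (B := β * S / 2) (C := A) hε
      (th_nonneg hβ.le (hp _ hh') hT0) (th_mono hβ.le hle) (th_le_one hβ.le hN hh.le_one hT1)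
      (fun z hz => hEq' z (Finset.mem_union_left _ hz))
      (fun z hz => hEq' z (Finset.mem_union_right _ hz)) hEG
      (by
        intro z hz
        by_cases hz0 : z.1 = 0
        · unfold th at hz; rw [if_pos hz0, if_pos hz0] at hz; exact absurd hz (lt_irrefl _)
        · rw [th_ne _ hz0]
          have h1 : 0 < h' z.2 := hh0.trans_le (hh'.ge _)
          have h2 : (0 : ℝ) < N := hβ.trans_le hN
          positivity)
      (by
        intro s hs z hz
        by_cases hz0 : z.1 = 0
        · unfold th at hz; rw [if_pos hz0, if_pos hz0] at hz; exact absurd hz (lt_irrefl _)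
        · rw [path_thM hβ.le hT0 h h' hs]
          exact hM _ (fam_path hh0.le hh hh' hs) z hz0)
      (Real.log_nonneg hS)
      (by
        have h2 : (0 : ℝ) < N := hβ.trans_le hN
        have e := sum_layers (n := n) (N := N)
          (fun z => if th β N h' T z < th β N h T z then th β N h T z else 0)
          (fun x => if h' x < h x then β * h x / (2 * N) else 0)
          (by intro x; simp [th_zero])
          (by
            intro k x hk
            simp only [th_ne (z := (k, x)) _ hk]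
            have : β * h' x / (2 * (N : ℝ)) < β * h x / (2 * N) ↔ h' x < h x := by
              rw [div_lt_div_iff_of_pos_right (by positivity), mul_lt_mul_iff_right₀ hβ]
            simp only [this])
        rw [e]
        have e2 : ∀ x, (if h' x < h x then β * h x / (2 * N) else 0)
            = β / (2 * N) * (if h' x = h x then 0 else h x) := by
          intro x
          rcases lt_or_eq_of_le (hle x) with h3 | h3
          · rw [if_pos h3, if_neg h3.ne]; ring
          · rw [if_neg (by rw [h3]; exact lt_irrefl _), if_pos h3]; ring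
        rw [Finset.sum_congr rfl fun x _ => e2 x, ← Finset.mul_sum]
        have e3 : (N : ℝ) * (β / (2 * N) * ∑ x, (if h' x = h x then 0 else h x))
            = β / 2 * ∑ x, (if h' x = h x then 0 else h x) := by
          field_simp
        rw [e3]
        have := mul_le_mul_of_nonneg_left hSum (by positivity : (0 : ℝ) ≤ β / 2)
        linarith)
      hLB
    intro a haE haG
    refine le_trans ?_ (key a haE haG)
    have e1 : Real.exp (-(4 * ε * Real.log (β * S))) = (β * S) ^ (-(4 * ε)) := by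
      rw [Real.rpow_def_of_pos hbS]; congr 1; ring
    have e2 : Real.exp (-Real.log (β * S)) = (β * S)⁻¹ := by
      rw [Real.exp_neg, Real.exp_log hbS]
    rw [e1, e2]
    have e3 : 2 * ε * (β * S / 2) * (β * S)⁻¹ = ε := by
      rw [show 2 * ε * (β * S / 2) * (β * S)⁻¹ = ε * ((β * S) * (β * S)⁻¹) by ring,
        mul_inv_cancel₀ hbS.ne', mul_one]
    rw [e3]
    linarith
  dual := by
    intro hh1 hh2 h' hh' E q hE hqE hq0 hq hq1 R hR hRB
    rw [RBn_cF] at hRB ⊢
    have hfam1 : Fam n h0 lam fun _ => 1 := fam_const hh2 le_rfl zero_le_one hlam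
    have h2 : (0 : ℝ) < N := hβ.trans_le hN
    have hp' : ∀ x, 0 ≤ h' x := fun x => hh0.le.trans (hh'.ge x)
    have hmon := th_mono (N := N) (T := T) hβ.le (h := fun _ => 1) (h' := h') hh'.le_one
    have hS : 0 ≤ Real.log (h0⁻¹) := Real.log_nonneg ((one_le_inv₀ hh0).2 hh2)
    have hexp : Real.exp (Real.log (h0⁻¹)) = h0⁻¹ := Real.exp_log (inv_pos.2 hh0)
    have key := ode_RB hG (θ0 := th β N h' T) (θ1 := th β N (fun _ => 1) T)
      (th_nonneg hβ.le hp' hT0) hmon (th_le_one hβ.le hN (fun _ => le_rfl) hT1) (E := E)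
      (by
        intro z hz
        by_cases hz0 : z.1 = 0
        · unfold th; rw [if_pos hz0, if_pos hz0]
        · rw [th_ne _ hz0, th_ne _ hz0, hE z hz hz0])
      hq1 (τ := 2 * ε) (by positivity)
      (by
        intro s hs z hz
        by_cases hz0 : z.1 = 0
        · unfold th at hz; rw [if_pos hz0, if_pos hz0] at hz; exact absurd hz (lt_irrefl _)
        · have h3 := hM _ (fam_path hh0.le hfam1 hh' hs) z hz0
          rw [← path_thM hβ.le hT0 (fun _ => 1) h' hs] at h3
          have h4 : (path (th β N (fun _ => 1) T) (th β N h' T) s) =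
              fun x => max (th β N h' T x) (Real.exp (-s) * th β N (fun _ => 1) T x) := rfl
          rw [h4] at h3
          exact ⟨sqrt_mag_le hε h3, by linarith⟩)
      hR hRB hS
      (by
        intro z
        rw [hexp]
        by_cases hz0 : z.1 = 0
        · unfold th; rw [if_pos hz0, if_pos hz0]
          exact le_mul_of_one_le_left (hT0 _) ((one_le_inv₀ hh0).2 hh2)
        · rw [th_ne _ hz0, th_ne _ hz0]
          have h3 : (1 : ℝ) ≤ h0⁻¹ * h' z.2 := by
            rw [← div_eq_inv_mul, le_div_iff₀ hh0]; simpa using hh'.ge z.2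
          calc β * 1 / (2 * (N : ℝ)) ≤ β * (h0⁻¹ * h' z.2) / (2 * N) := by gcongr
            _ = h0⁻¹ * (β * h' z.2 / (2 * N)) := by ring)
    intro a ha
    refine (key a ha).trans ?_
    have hK : 0 ≤ KK (phys (edges n) β N) (th β N h' T) a := by
      unfold KK EE
      refine div_nonneg (Finset.sum_nonneg fun π _ => Finset.sum_nonneg fun s _ => ?_) ?_
      · exact mul_nonneg (mul_nonneg (hG.nn π) (wt_nonneg (th_nonneg hβ.le hp' hT0) π s))
          (sq_nonneg _)
      · exact (ZZ_pos hG.nn hG.pos (th_nonneg hβ.le hp' hT0)).le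
    refine mul_le_mul_of_nonneg_right ?_ hK
    rw [hexp]
    have e1 : Real.exp (2 * (2 * ε) * Real.log (h0⁻¹)) = h0 ^ (-(4 * ε)) := by
      rw [Real.rpow_def_of_pos hh0, Real.log_inv]; congr 1; ring
    rw [e1]
    refine mul_le_mul_of_nonneg_left ?_ (Real.rpow_nonneg hh0.le _)
    have hsum : ∑ z ∈ univ.filter (fun z => th β N h' T z < th β N (fun _ => 1) T z),
        q z ^ 2 / th β N (fun _ => 1) T z ≤ (2 * N / β) * ∑ z, q z ^ 2 := by
      rw [Finset.mul_sum]
      refine le_trans (Finset.sum_le_sum_of_subset_of_nonneg (Finset.filter_subset _ _) ?_)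
        (Finset.sum_le_sum fun z _ => ?_)
      · intro z _ _
        exact div_nonneg (sq_nonneg _) (th_nonneg hβ.le (fun _ => zero_le_one) hT0 z)
      · by_cases hz0 : z.1 = 0
        · have : z = (0, z.2) := Prod.ext hz0 rfl
          rw [this, hq0]; simp
        · rw [th_ne _ hz0]
          apply le_of_eq
          field_simp
    have h5 : 0 ≤ ∑ z ∈ univ.filter (fun z => th β N h' T z < th β N (fun _ => 1) T z),
        q z ^ 2 / th β N (fun _ => 1) T z :=
      Finset.sum_nonneg fun z _ =>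
        div_nonneg (sq_nonneg _) (th_nonneg hβ.le (fun _ => zero_le_one) hT0 z)
    have h6 : 4 * (h0⁻¹ - 1) * ∑ z ∈ univ.filter
        (fun z => th β N h' T z < th β N (fun _ => 1) T z), q z ^ 2 / th β N (fun _ => 1) T z
        ≤ 4 * h0⁻¹ * ((2 * N / β) * ∑ z, q z ^ 2) := by
      have h7 : 0 < h0⁻¹ := inv_pos.2 hh0
      refine le_trans (mul_le_mul_of_nonneg_right (by linarith : 4 * (h0⁻¹ - 1) ≤ 4 * h0⁻¹) h5) ?_
      exact mul_le_mul_of_nonneg_left hsum (by positivity)
    have e4 : 4 * h0⁻¹ * ((2 * N / β) * ∑ z, q z ^ 2) = 8 * N / (β * h0) * ∑ z, q z ^ 2 := by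
      field_simp
      ring
    linarith

end

end Vale.Agent.P361.LRO.Net
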